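import Vale.Agent.P021Z.An.DetBound
import Vale.Agent.P021Z.Ar.Approx

/-!
The two bounds for a minor of the jet matrix: the analytic upper bound for centres near the points
`(exp ζ, ζ, ..., ζ)`, and the arithmetic lower bound with the gains at finitely many primes.
-/

namespace Vale.Agent.N021

open Finset Polynomial Vale.Agent.P021Z Vale.Agent.P021Z.An

/-- The entries of the jet matrix. -/
noncomputable def ent {m : ℕ} (Y : ℂ) (Q : Fin m → ℂ[X]) (s h : ℕ) (α β : Fin m → ℕ) : ℂ :=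
  Y ^ h * ((1 + X) ^ h * ∏ k, C ((α k).choose (β k) : ℂ) * Q k ^ (α k - β k)).coeff s

/-- The analytic upper bound. -/
theorem det_upper {ι : Type*} [Fintype ι] [DecidableEq ι] {m : ℕ} (Q : ι → Fin m → ℂ[X])
    (ζ : ι → ℂ) (s h : ι → ℕ) (α β : ι → Fin m → ℕ) (y : Fin m → ℝ) (ρ κ r₀ R Z : ℝ) (N : ℕ)
    (hρ : 0 < ρ) (hρ' : ρ ≤ 1 / 2) (hy : ∀ k, 0 ≤ y k) (hκ : 0 ≤ κ) (hZ : 0 ≤ Z) (hR : 1 ≤ R)
    (hj : ∀ i, ‖ζ i‖ + 1 ≤ r₀) (hr₀ : 0 ≤ r₀) (hRr : 2 * r₀ * Real.exp κ ≤ R)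
    (hQ : ∀ i k (t : ℂ), ‖t‖ = ρ →
      ‖(Q i k).eval t - (ζ i + Complex.log (1 + t))‖ ≤ Real.exp (-y k))
    (hN : ∀ F : Finset ((Fin m → ℕ) × ℕ),
      (∀ a ∈ F, (∑ k, y k * a.1 k) + κ * a.2 < Z) → F.card ≤ N) :
    ‖(Matrix.of fun i c => ent (Complex.exp (ζ i)) (Q i) (s i) (h c) (α c) (β i)).det‖ ≤
      (Fintype.card ι).factorial * (∏ i, (ρ ^ s i)⁻¹ * Real.exp (∑ k, y k * β i k)) *
        (∏ c, Real.exp (h c * R) * (8 * R) ^ (∑ k, α c k)) * (2 ^ (m + 1)) ^ Fintype.card ι *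
        Real.exp (-(Z * ((Fintype.card ι : ℝ) - N))) := by
  classical
  set P : ι → ι → ℂ[X] := fun i c => C (Complex.exp (ζ i) ^ h c) * ((1 + X) ^ h c *
    ∏ k, C ((α c k).choose (β i k) : ℂ) * Q i k ^ (α c k - β i k)) with hP
  set N₀ : ℕ := (univ.sup s) + (univ.sup fun ic : ι × ι => (P ic.1 ic.2).natDegree) + 1 with hN₀
  have hs : ∀ i, s i < N₀ := fun i => by
    have := Finset.le_sup (f := s) (Finset.mem_univ i)
    omega
  have hdeg : ∀ i c, (P i c).natDegree < N₀ := fun i c => by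
    have := Finset.le_sup (f := fun ic : ι × ι => (P ic.1 ic.2).natDegree)
      (Finset.mem_univ (i, c))
    simp only at this
    omega
  have hN₀pos : 0 < N₀ := by omega
  obtain ⟨t, ht, havg⟩ := exists_circle_average N₀ ρ hρ
  set z : ι → ℕ → ℂ := fun i k => ζ i + Complex.log (1 + t k) with hz
  set x : ι → ℕ → Fin m → ℂ := fun i k l => (Q i l).eval (t k) - z i k with hx
  have ht1 : ∀ k, 1 + t k ≠ 0 := by
    intro k h0
    have h1 : t k = -1 := by linear_combination h0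
    have h2 := ht k
    rw [h1] at h2
    simp at h2
    linarith
  have hexp : ∀ i k, Complex.exp (z i k) = Complex.exp (ζ i) * (1 + t k) := by
    intro i k
    simp only [hz]
    rw [Complex.exp_add, Complex.exp_log (ht1 k)]
  have hznorm : ∀ i k, ‖z i k‖ ≤ r₀ := by
    intro i k
    have h1 : ‖Complex.log (1 + t k)‖ ≤ 1 := by
      have := Complex.norm_log_one_add_half_le_self (z := t k) (by rw [ht k]; exact hρ')
      rw [ht k] at this
      linarith
    calc ‖z i k‖ ≤ ‖ζ i‖ + ‖Complex.log (1 + t k)‖ := norm_add_le _ _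
      _ ≤ r₀ := by linarith [hj i]
  set lam : ι → (Fin m → ℕ) × ℕ → ℂ := fun i a => ∑ k ∈ range N₀,
    ((N₀ : ℂ)⁻¹ * (t k ^ s i)⁻¹) *
      ((∏ l, ((a.1 l).choose (β i l) : ℂ) * x i k l ^ (a.1 l - β i l)) * z i k ^ a.2) with hlam
  set e : (Fin m → ℕ) × ℕ → ι → ℂ := fun a c => (colCoef (h c) (α c) a : ℂ) with he
  have hR0 : 0 < R := by linarith
  refine norm_det_le_of_hasSum _ lam e ?_ _ _ (fun i => by positivity) (fun c => by positivity)
    (fun a => (∏ k, (1 / 2 : ℝ) ^ a.1 k) * (1 / 2 : ℝ) ^ a.2)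
    (fun a => (∑ k, y k * a.1 k) + κ * a.2)
    (fun a => mul_nonneg (Finset.prod_nonneg fun k _ => by positivity) (by positivity))
    _ sum_half_pow_le
    (fun a => add_nonneg (Finset.sum_nonneg fun k _ => mul_nonneg (hy k) (Nat.cast_nonneg _))
      (mul_nonneg hκ (Nat.cast_nonneg _))) Z hZ N hN ?_
  · intro i c
    have h1 : ∀ k ∈ range N₀, HasSum (fun a : (Fin m → ℕ) × ℕ =>
        ((N₀ : ℂ)⁻¹ * (t k ^ s i)⁻¹) *
          (((∏ l, ((a.1 l).choose (β i l) : ℂ) * x i k l ^ (a.1 l - β i l)) * z i k ^ a.2) *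
            (colCoef (h c) (α c) a : ℂ)))
        (((N₀ : ℂ)⁻¹ * (t k ^ s i)⁻¹) * (P i c).eval (t k)) := by
      intro k _
      refine hasSum_of_eq ((hasSum_expand (h c) (α c) (β i) (z i k) (x i k)).mul_left _) rfl ?_
      congr 1
      rw [Complex.exp_nat_mul, hexp]
      simp only [hP, hx, eval_mul, eval_pow, eval_add, eval_one, eval_X, eval_prod, eval_C,
        add_sub_cancel, mul_pow, mul_assoc]
    refine hasSum_of_eq (hasSum_sum h1) ?_ ?_
    · ext a
      simp only [hlam, he]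
      rw [Finset.sum_mul]
      exact Finset.sum_congr rfl fun k _ => by ring
    · rw [← havg (s i) (P i c) (hs i) (hdeg i c), hP, coeff_C_mul]
      rfl
  · intro i a c
    have hcol : 0 ≤ colCoef (h c) (α c) a :=
      mul_nonneg (Finset.prod_nonneg fun k _ => by positivity) (expCoef_nonneg _ _ _)
    have h1 : ‖e a c‖ = colCoef (h c) (α c) a := by
      simp only [he, Complex.norm_real, Real.norm_eq_abs, abs_of_nonneg hcol]
    set V : ℝ := (∏ k, ((a.1 k).choose (β i k) : ℝ) * Real.exp (-y k) ^ (a.1 k - β i k)) *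
      r₀ ^ a.2 with hV
    have h2 : ‖lam i a‖ ≤ (ρ ^ s i)⁻¹ * V := by
      have hterm : ∀ k ∈ range N₀, ‖((N₀ : ℂ)⁻¹ * (t k ^ s i)⁻¹) *
          ((∏ l, ((a.1 l).choose (β i l) : ℂ) * x i k l ^ (a.1 l - β i l)) * z i k ^ a.2)‖ ≤
          (N₀ : ℝ)⁻¹ * ((ρ ^ s i)⁻¹ * V) := by
        intro k _
        rw [norm_mul, norm_mul, norm_mul, norm_inv, norm_inv, norm_pow, norm_pow, ht k, norm_prod,
          Complex.norm_natCast, mul_assoc]
        refine mul_le_mul_of_nonneg_left (mul_le_mul_of_nonneg_left ?_ (by positivity))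
          (by positivity)
        refine mul_le_mul ?_ (pow_le_pow_left₀ (norm_nonneg _) (hznorm i k) _) (by positivity)
          (Finset.prod_nonneg fun k _ => by positivity)
        refine Finset.prod_le_prod (fun l _ => norm_nonneg _) fun l _ => ?_
        rw [norm_mul, norm_pow, Complex.norm_natCast]
        exact mul_le_mul_of_nonneg_left
          (pow_le_pow_left₀ (norm_nonneg _) (hQ i l (t k) (ht k)) _) (Nat.cast_nonneg _)
      refine (norm_sum_le _ _).trans ((Finset.sum_le_sum hterm).trans (le_of_eq ?_))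
      have hN0 : (N₀ : ℝ) ≠ 0 := by exact_mod_cast hN₀pos.ne'
      rw [Finset.sum_const, Finset.card_range, nsmul_eq_mul]
      field_simp
    have h3 := row_col_le (h c) (α c) (β i) y κ r₀ R hr₀ hR hRr a
    rw [h1]
    calc ‖lam i a‖ * colCoef (h c) (α c) a ≤ ((ρ ^ s i)⁻¹ * V) * colCoef (h c) (α c) a :=
          mul_le_mul_of_nonneg_right h2 hcol
      _ = (ρ ^ s i)⁻¹ * (V * colCoef (h c) (α c) a) := by ring
      _ ≤ (ρ ^ s i)⁻¹ * _ := mul_le_mul_of_nonneg_left h3 (by positivity)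
      _ = _ := by ring

/-! The arithmetic side. -/

/-- `z` is a multiple of `d` in `O`. -/
def Dv (O : Subring ℂ) (d z : ℂ) : Prop := ∃ u ∈ O, z = d * u

/-- All coefficients lie in `O`. -/
noncomputable abbrev PO (O : Subring ℂ) : Subsemiring ℂ[X] := lifts O.subtype

theorem coeff_mem {O : Subring ℂ} {p : ℂ[X]} (hp : p ∈ PO O) (n : ℕ) : p.coeff n ∈ O := by
  obtain ⟨z, hz⟩ := (lifts_iff_coeff_lifts _).1 hp n
  rw [← hz]
  exact z.2

theorem C_mem_PO {O : Subring ℂ} {z : ℂ} (hz : z ∈ O) : C z ∈ PO O :=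
  C'_mem_lifts ⟨⟨z, hz⟩, rfl⟩

theorem one_add_X_pow_mem (O : Subring ℂ) (h : ℕ) : (1 + X : ℂ[X]) ^ h ∈ PO O :=
  Subsemiring.pow_mem _ (Subsemiring.add_mem _ (Subsemiring.one_mem _) (X_mem_lifts _)) _

theorem det_mem {O : Subring ℂ} {ι : Type*} [Fintype ι] [DecidableEq ι] (E : Matrix ι ι ℂ)
    (hE : ∀ i c, E i c ∈ O) : E.det ∈ O := by
  rw [Matrix.det_apply']
  exact O.sum_mem fun σ _ => O.mul_mem (intCast_mem O _) (O.prod_mem fun i _ => hE _ _)

theorem sum_choose_choose' {A : Type*} [CommRing A] (a b D : ℕ) (hD : a ≤ D) (x z : A) :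
    ∑ g ∈ range (D + 1), ((g.choose b : A) * x ^ (g - b)) * ((a.choose g : A) * z ^ (a - g)) =
      (a.choose b : A) * (z + x) ^ (a - b) := by
  have hcut : ∑ g ∈ range (D + 1), ((g.choose b : A) * x ^ (g - b)) *
      ((a.choose g : A) * z ^ (a - g)) = ∑ g ∈ range (a + 1), ((g.choose b : A) * x ^ (g - b)) *
      ((a.choose g : A) * z ^ (a - g)) := by
    refine (Finset.sum_subset (Finset.range_subset_range.2 (by omega)) fun g _ hg => ?_).symm
    rw [Nat.choose_eq_zero_of_lt (show a < g by simpa using hg)]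
    simp
  rw [hcut]
  rcases le_or_gt b a with hab | hab
  · obtain ⟨d, rfl⟩ := Nat.exists_eq_add_of_le hab
    rw [Nat.add_sub_cancel_left, add_assoc, Finset.sum_range_add, add_comm z x, add_pow,
      Finset.mul_sum]
    have h0 : ∑ g ∈ range b, ((g.choose b : A) * x ^ (g - b)) *
        (((b + d).choose g : A) * z ^ (b + d - g)) = 0 := by
      refine Finset.sum_eq_zero fun g hg => ?_
      rw [Nat.choose_eq_zero_of_lt (Finset.mem_range.1 hg)]
      simp
    rw [h0, zero_add]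
    refine Finset.sum_congr rfl fun i hi => ?_
    have hi' : i ≤ d := Nat.lt_succ_iff.1 (Finset.mem_range.1 hi)
    have h1 : (b + d).choose (b + i) * (b + i).choose b = (b + d).choose b * d.choose i := by
      have := Nat.choose_mul (n := b + d) (k := b + i) (s := b) (Nat.le_add_right b i)
      simpa using this
    have h2 : ((b + d).choose (b + i) : A) * ((b + i).choose b : A) =
        ((b + d).choose b : A) * (d.choose i : A) := by exact_mod_cast congrArg (Nat.cast : ℕ → A) h1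
    rw [Nat.add_sub_cancel_left, Nat.add_sub_add_left]
    linear_combination (x ^ i * z ^ (d - i)) * h2
  · rw [Nat.choose_eq_zero_of_lt hab]
    simp only [Nat.cast_zero, zero_mul]
    refine Finset.sum_eq_zero fun g hg => ?_
    have : g < b := lt_of_le_of_lt (Nat.lt_succ_iff.1 (Finset.mem_range.1 hg)) hab
    rw [Nat.choose_eq_zero_of_lt this]
    simp

theorem prod_expand {m : ℕ} (α β : Fin m → ℕ) (D : ℕ) (hD : ∀ k, α k ≤ D) (x z : Fin m → ℂ[X]) :
    ∏ k, C ((α k).choose (β k) : ℂ) * (z k + x k) ^ (α k - β k) =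
      ∑ δ ∈ Fintype.piFinset (fun _ : Fin m => range (D + 1)),
        (∏ k, (((δ k).choose (β k) : ℂ[X]) * x k ^ (δ k - β k))) *
          ∏ k, (((α k).choose (δ k) : ℂ[X]) * z k ^ (α k - δ k)) := by
  simp only [← Finset.prod_mul_distrib]
  rw [← Finset.prod_univ_sum (fun _ : Fin m => range (D + 1)) (fun k g =>
    ((g.choose (β k) : ℂ[X]) * x k ^ (g - β k)) * (((α k).choose g : ℂ[X]) * z k ^ (α k - g)))]
  refine Finset.prod_congr rfl fun k _ => ?_
  rw [sum_choose_choose' _ _ _ (hD k), map_natCast]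

/-- The gain at one prime. -/
theorem gain {ι Ξ : Type} [Fintype ι] [DecidableEq ι] [Fintype Ξ] {m : ℕ} (O : Subring ℂ)
    (E : Matrix ι ι ℂ) (F : Finset (Ξ × (Fin m → ℕ))) (lam : ι → Ξ × (Fin m → ℕ) → ℂ)
    (e : Ξ × (Fin m → ℕ) → ι → ℂ) (hE : ∀ i c, E i c = ∑ a ∈ F, lam i a * e a c)
    (he : ∀ a c, e a c ∈ O) (β : ι → Fin m → ℕ) (l : ℕ) (hl : 2 ≤ l) (ex : Fin m → ℕ)
    (hlam : ∀ i a, lam i a = 0 ∨ ((∀ k, β i k ≤ a.2 k) ∧
      Dv O ((l : ℂ) ^ (∑ k, ex k * (a.2 k - β i k))) (lam i a)))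
    (w : Fin m → ℝ) (μ : ℝ) (hμ : 0 ≤ μ) (hw : ∀ k, 0 ≤ w k)
    (hex : ∀ k, μ * w k ≤ ex k * Real.log l) (Z : ℝ) (hZ : 0 ≤ Z) (N0 : ℕ)
    (hN0 : ∀ G : Finset (Fin m → ℕ), (∀ δ ∈ G, ∑ k, w k * δ k < Z) → G.card ≤ N0) :
    ∃ g : ℕ, μ * (Z * ((Fintype.card ι : ℝ) - (Fintype.card Ξ * N0 : ℕ)) -
      ∑ i, ∑ k, w k * β i k) ≤ g * Real.log l ∧ Dv O ((l : ℂ) ^ g) E.det := by
  classical
  have hlog : 0 < Real.log l := Real.log_pos (by exact_mod_cast hl)
  set Γ := μ * (Z * ((Fintype.card ι : ℝ) - (Fintype.card Ξ * N0 : ℕ)) -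
      ∑ i, ∑ k, w k * β i k) with hΓ
  refine ⟨⌈Γ / Real.log l⌉₊, ?_, ?_⟩
  · rw [← div_le_iff₀ hlog]
    exact Nat.le_ceil _
  have hE' : E = Matrix.of fun i c => ∑ a ∈ F, lam i a * e a c := by
    ext i c
    exact hE i c
  rw [hE', det_sum_expand]
  have hsum : ∀ (s : Finset (ι → Ξ × (Fin m → ℕ))) (f : (ι → Ξ × (Fin m → ℕ)) → ℂ) (d : ℂ),
      (∀ φ ∈ s, Dv O d (f φ)) → Dv O d (∑ φ ∈ s, f φ) := by
    intro s f d hf
    choose! u hu hu' using hf
    exact ⟨∑ φ ∈ s, u φ, O.sum_mem hu, by rw [Finset.mul_sum]; exact Finset.sum_congr rfl hu'⟩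
  refine hsum _ _ _ fun φ _ => ?_
  by_cases hφ : Function.Injective φ
  swap
  · have hz : (Matrix.of fun i c => e (φ i) c).det = 0 := by
      simp only [Function.Injective, not_forall] at hφ
      obtain ⟨i, i', h, hne⟩ := hφ
      refine Matrix.det_zero_of_row_eq hne ?_
      ext c
      simp [h]
    exact ⟨0, O.zero_mem, by rw [hz]; simp⟩
  by_cases h0 : ∃ i, lam i (φ i) = 0
  · obtain ⟨i, hi⟩ := h0
    exact ⟨0, O.zero_mem, by rw [Finset.prod_eq_zero (Finset.mem_univ i) hi]; simp⟩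
  push Not at h0
  have h1 := fun i => (hlam i (φ i)).resolve_left (h0 i)
  choose u hu hu' using fun i => (h1 i).2
  have hw1 := weight_le_of_injective (fun a : Ξ × (Fin m → ℕ) => ∑ k, w k * a.2 k)
    (fun a => Finset.sum_nonneg fun k _ => mul_nonneg (hw k) (Nat.cast_nonneg _)) Z hZ
    (Fintype.card Ξ * N0) (fun G hG => by
      have h2 : G ⊆ univ ×ˢ G.image Prod.snd := fun a ha =>
        Finset.mem_product.2 ⟨Finset.mem_univ _, Finset.mem_image_of_mem _ ha⟩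
      refine (Finset.card_le_card h2).trans ?_
      rw [Finset.card_product, Finset.card_univ]
      refine Nat.mul_le_mul_left _ (hN0 _ fun δ hδ => ?_)
      obtain ⟨a, ha, rfl⟩ := Finset.mem_image.1 hδ
      exact hG a ha) φ hφ
  set tot : ℕ := ∑ i, ∑ k, ex k * ((φ i).2 k - β i k) with htot
  have hle : ⌈Γ / Real.log l⌉₊ ≤ tot := by
    refine Nat.ceil_le.2 ?_
    rw [div_le_iff₀ hlog, htot]
    push_cast
    rw [Finset.sum_mul]
    have h3 : ∀ i, μ * (∑ k, w k * (φ i).2 k - ∑ k, w k * β i k) ≤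
        (∑ k, (ex k : ℝ) * (((φ i).2 k - β i k : ℕ) : ℝ)) * Real.log l := by
      intro i
      rw [← Finset.sum_sub_distrib, Finset.mul_sum, Finset.sum_mul]
      refine Finset.sum_le_sum fun k _ => ?_
      have h4 : (0 : ℝ) ≤ (((φ i).2 k - β i k : ℕ) : ℝ) := Nat.cast_nonneg _
      have h5 := mul_le_mul_of_nonneg_right (hex k) h4
      rw [Nat.cast_sub ((h1 i).1 k)] at h5 ⊢
      nlinarith
    refine le_trans ?_ (Finset.sum_le_sum fun i _ => h3 i)
    rw [← Finset.mul_sum, Finset.sum_sub_distrib, hΓ]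
    exact mul_le_mul_of_nonneg_left (by linarith) hμ
  obtain ⟨d, hd⟩ := Nat.exists_eq_add_of_le hle
  refine ⟨(l : ℂ) ^ d * (∏ i, u i) * (Matrix.of fun i c => e (φ i) c).det,
    O.mul_mem (O.mul_mem (O.pow_mem (natCast_mem O l) d) (O.prod_mem fun i _ => hu i))
      (det_mem _ fun i c => he _ _), ?_⟩
  rw [Finset.prod_congr rfl fun i _ => hu' i, Finset.prod_mul_distrib, Finset.prod_pow_eq_pow_sum,
    ← htot, hd, pow_add]
  ring

theorem prod_zero_or {m : ℕ} (δ β : Fin m → ℕ) (x : Fin m → ℂ[X]) :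
    (∏ k, (((δ k).choose (β k) : ℂ[X]) * x k ^ (δ k - β k))) = 0 ∨ ∀ k, β k ≤ δ k := by
  by_cases h : ∀ k, β k ≤ δ k
  · exact Or.inr h
  · push Not at h
    obtain ⟨k, hk⟩ := h
    exact Or.inl (Finset.prod_eq_zero (Finset.mem_univ k)
      (by rw [Nat.choose_eq_zero_of_lt hk]; simp))

theorem prod_factor {m : ℕ} (δ β ex : Fin m → ℕ) (l : ℂ) (x : Fin m → ℂ[X]) :
    (∏ k, (((δ k).choose (β k) : ℂ[X]) * (C (l ^ ex k) * x k) ^ (δ k - β k))) =
      C (l ^ (∑ k, ex k * (δ k - β k))) *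
        ∏ k, (((δ k).choose (β k) : ℂ[X]) * x k ^ (δ k - β k)) := by
  rw [← Finset.prod_pow_eq_pow_sum, map_prod, ← Finset.prod_mul_distrib]
  refine Finset.prod_congr rfl fun k _ => ?_
  rw [mul_pow, pow_mul, map_pow (C : ℂ →+* ℂ[X]) (l ^ ex k)]
  ring

theorem prod_mem_PO {O : Subring ℂ} {m : ℕ} (δ β : Fin m → ℕ) (x : Fin m → ℂ[X])
    (hx : ∀ k, x k ∈ PO O) :
    (∏ k, (((δ k).choose (β k) : ℂ[X]) * x k ^ (δ k - β k))) ∈ PO O :=
  Subsemiring.prod_mem _ fun k _ => Subsemiring.mul_mem _ (natCast_mem _ _)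
    (Subsemiring.pow_mem _ (hx k) _)

/-- The gain at a prime that divides the denominators. -/
theorem gain_den {ι κ : Type} [Fintype ι] [DecidableEq ι] [Fintype κ] {m : ℕ} (O : Subring ℂ)
    (j : ι → κ) (Y : κ → ℂ) (hY : ∀ a, Y a ∈ O) (P : κ → Fin m → ℂ) (hP : ∀ a k, P a k ∈ O)
    (G : Fin m → ℂ[X]) (hG : ∀ k, G k ∈ PO O) (s h : ι → ℕ) (α β : ι → Fin m → ℕ)
    (hm : ℕ) (hh : ∀ c, h c ≤ hm) (l : ℕ) (hl : 2 ≤ l) (ex : Fin m → ℕ)
    (w : Fin m → ℝ) (μ : ℝ) (hμ : 0 ≤ μ) (hw : ∀ k, 0 ≤ w k)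
    (hex : ∀ k, μ * w k ≤ ex k * Real.log l) (Z : ℝ) (hZ : 0 ≤ Z) (N0 : ℕ)
    (hN0 : ∀ G : Finset (Fin m → ℕ), (∀ δ ∈ G, ∑ k, w k * δ k < Z) → G.card ≤ N0) :
    ∃ g : ℕ, μ * (Z * ((Fintype.card ι : ℝ) - (Fintype.card κ * (hm + 1) * N0 : ℕ)) -
      ∑ i, ∑ k, w k * β i k) ≤ g * Real.log l ∧ Dv O ((l : ℂ) ^ g)
      (Matrix.of fun i c => ent (Y (j i)) (fun k => C (P (j i) k) + C ((l : ℂ) ^ ex k) * G k)
        (s i) (h c) (α c) (β i)).det := by
  classical
  set D : ℕ := univ.sup fun ck : ι × Fin m => α ck.1 ck.2 with hD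
  have hDα : ∀ c k, α c k ≤ D := fun c k =>
    Finset.le_sup (f := fun ck : ι × Fin m => α ck.1 ck.2) (Finset.mem_univ (c, k))
  have := gain (Ξ := κ × Fin (hm + 1)) O
    (Matrix.of fun i c => ent (Y (j i)) (fun k => C (P (j i) k) + C ((l : ℂ) ^ ex k) * G k)
        (s i) (h c) (α c) (β i))
    (univ ×ˢ Fintype.piFinset (fun _ : Fin m => range (D + 1)))
    (fun i a => if a.1.1 = j i then (X ^ (a.1.2 : ℕ) * ∏ k, (((a.2 k).choose (β i k) : ℂ[X]) *
      (C ((l : ℂ) ^ ex k) * G k) ^ (a.2 k - β i k))).coeff (s i) else 0)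
    (fun a c => Y a.1.1 ^ h c * ((h c).choose a.1.2 *
      ∏ k, (((α c k).choose (a.2 k) : ℂ) * P a.1.1 k ^ (α c k - a.2 k))))
    (fun i c => ?_) (fun a c => ?_) β l hl ex (fun i a => ?_) w μ hμ hw hex Z hZ N0 hN0
  · simpa only [Fintype.card_prod, Fintype.card_fin] using this
  · rw [Matrix.of_apply, ent, prod_expand _ _ D (hDα c), Finset.sum_product, Fintype.sum_prod_type,
      Finset.sum_eq_single (j i)]
    · simp only [if_true]
      have h1 : (1 + X : ℂ[X]) ^ h c = ∑ n : Fin (hm + 1), X ^ (n : ℕ) * ((h c).choose n : ℂ[X]) := by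
        rw [Fin.sum_univ_eq_sum_range (fun n => X ^ n * ((h c).choose n : ℂ[X])), add_comm,
          add_pow]
        simp only [one_pow, mul_one]
        refine Finset.sum_subset (Finset.range_subset_range.2 (by have := hh c; omega))
          fun g _ hg => ?_
        rw [Nat.choose_eq_zero_of_lt (show h c < g by simpa using hg)]
        simp
      rw [h1, Finset.sum_mul_sum, finsetSum_coeff, Finset.mul_sum]
      refine Finset.sum_congr rfl fun n _ => ?_
      rw [finsetSum_coeff, Finset.mul_sum]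
      refine Finset.sum_congr rfl fun δ _ => ?_
      have h2 : ∏ k, (((α c k).choose (δ k) : ℂ[X]) * C (P (j i) k) ^ (α c k - δ k)) =
          C (∏ k, (((α c k).choose (δ k) : ℂ) * P (j i) k ^ (α c k - δ k))) := by
        rw [map_prod]
        exact Finset.prod_congr rfl fun k _ => by rw [map_mul, map_pow, map_natCast]
      rw [h2, show ((h c).choose n : ℂ[X]) = C ((h c).choose n : ℂ) from (map_natCast _ _).symm,
        show ∀ (u v : ℂ[X]) (a b : ℂ), u * C a * (v * C b) = C (a * b) * (u * v) from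
          fun u v a b => by rw [map_mul]; ring, coeff_C_mul]
      ring
    · intro a _ ha
      simp [ha]
    · simp
  · exact O.mul_mem (O.pow_mem (hY _) _) (O.mul_mem (natCast_mem O _)
      (O.prod_mem fun k _ => O.mul_mem (natCast_mem O _) (O.pow_mem (hP _ _) _)))
  · by_cases ha : a.1.1 = j i
    · simp only [ha, if_true]
      rcases prod_zero_or a.2 (β i) (fun k => C ((l : ℂ) ^ ex k) * G k) with h0 | h0
      · left
        rw [h0]
        simp
      · right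
        refine ⟨h0, (X ^ (a.1.2 : ℕ) * ∏ k, (((a.2 k).choose (β i k) : ℂ[X]) *
          G k ^ (a.2 k - β i k))).coeff (s i), coeff_mem (Subsemiring.mul_mem _
            (Subsemiring.pow_mem _ (X_mem_lifts _) _) (prod_mem_PO _ _ _ hG)) _, ?_⟩
        rw [prod_factor, mul_left_comm, coeff_C_mul]
    · left
      simp [ha]

/-- The gain at a prime that divides the numerators, when all centres have the same `Y`. -/
theorem gain_num {ι : Type} [Fintype ι] [DecidableEq ι] {m : ℕ} (O : Subring ℂ)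
    (Y : ℂ) (hY : Y ∈ O) (P : ι → Fin m → ℂ) (hP : ∀ a k, P a k ∈ O)
    (G : Fin m → ℂ[X]) (hG : ∀ k, G k ∈ PO O) (s h : ι → ℕ) (α β : ι → Fin m → ℕ)
    (sm : ℕ) (hs : ∀ i, s i ≤ sm) (l : ℕ) (hl : 2 ≤ l) (ex : Fin m → ℕ)
    (w : Fin m → ℝ) (μ : ℝ) (hμ : 0 ≤ μ) (hw : ∀ k, 0 ≤ w k)
    (hex : ∀ k, μ * w k ≤ ex k * Real.log l) (Z : ℝ) (hZ : 0 ≤ Z) (N0 : ℕ)
    (hN0 : ∀ G : Finset (Fin m → ℕ), (∀ δ ∈ G, ∑ k, w k * δ k < Z) → G.card ≤ N0) :
    ∃ g : ℕ, μ * (Z * ((Fintype.card ι : ℝ) - ((sm + 1) * N0 : ℕ)) -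
      ∑ i, ∑ k, w k * β i k) ≤ g * Real.log l ∧ Dv O ((l : ℂ) ^ g)
      (Matrix.of fun i c => ent Y (fun k => C ((l : ℂ) ^ ex k * P i k) + G k)
        (s i) (h c) (α c) (β i)).det := by
  classical
  set D : ℕ := univ.sup fun ck : ι × Fin m => α ck.1 ck.2 with hD
  have hDα : ∀ c k, α c k ≤ D := fun c k =>
    Finset.le_sup (f := fun ck : ι × Fin m => α ck.1 ck.2) (Finset.mem_univ (c, k))
  have := gain (Ξ := Fin (sm + 1)) O
    (Matrix.of fun i c => ent Y (fun k => C ((l : ℂ) ^ ex k * P i k) + G k)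
        (s i) (h c) (α c) (β i))
    (univ ×ˢ Fintype.piFinset (fun _ : Fin m => range (D + 1)))
    (fun i a => if (a.1 : ℕ) = s i then ∏ k, (((a.2 k).choose (β i k) : ℂ) *
      ((l : ℂ) ^ ex k * P i k) ^ (a.2 k - β i k)) else 0)
    (fun a c => Y ^ h c * ((1 + X) ^ h c *
      ∏ k, (((α c k).choose (a.2 k) : ℂ[X]) * G k ^ (α c k - a.2 k))).coeff a.1)
    (fun i c => ?_) (fun a c => ?_) β l hl ex (fun i a => ?_) w μ hμ hw hex Z hZ N0 hN0
  · simpa only [Fintype.card_fin] using this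
  · rw [Matrix.of_apply, ent]
    simp only [add_comm (C _) (G _)]
    rw [prod_expand _ _ D (hDα c), Finset.sum_product,
      Finset.sum_eq_single (⟨s i, Nat.lt_succ_of_le (hs i)⟩ : Fin (sm + 1))]
    · simp only [if_true]
      rw [Finset.mul_sum, finsetSum_coeff, Finset.mul_sum]
      refine Finset.sum_congr rfl fun δ _ => ?_
      have h2 : ∏ k, (((δ k).choose (β i k) : ℂ[X]) *
          C ((l : ℂ) ^ ex k * P i k) ^ (δ k - β i k)) =
          C (∏ k, (((δ k).choose (β i k) : ℂ) * ((l : ℂ) ^ ex k * P i k) ^ (δ k - β i k))) := by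
        rw [map_prod]
        exact Finset.prod_congr rfl fun k _ => by rw [map_mul C (_ : ℂ) (_ ^ _), map_pow,
          map_natCast]
      rw [h2, mul_left_comm ((1 + X) ^ h c), coeff_C_mul]
      ring
    · intro a _ ha
      have : (a : ℕ) ≠ s i := fun e => ha (Fin.ext e)
      simp [this]
    · simp
  · exact O.mul_mem (O.pow_mem hY _) (coeff_mem (Subsemiring.mul_mem _ (one_add_X_pow_mem O _)
      (prod_mem_PO _ _ _ hG)) _)
  · by_cases ha : (a.1 : ℕ) = s i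
    · simp only [ha, if_true]
      by_cases h0 : ∀ k, β i k ≤ a.2 k
      · right
        refine ⟨h0, ∏ k, (((a.2 k).choose (β i k) : ℂ) * P i k ^ (a.2 k - β i k)),
          O.prod_mem fun k _ => O.mul_mem (natCast_mem O _) (O.pow_mem (hP _ _) _), ?_⟩
        rw [← Finset.prod_pow_eq_pow_sum, ← Finset.prod_mul_distrib]
        refine Finset.prod_congr rfl fun k _ => ?_
        rw [mul_pow, pow_mul]
        ring
      · left
        push Not at h0
        obtain ⟨k, hk⟩ := h0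
        exact Finset.prod_eq_zero (Finset.mem_univ k) (by rw [Nat.choose_eq_zero_of_lt hk]; simp)
    · left
      simp [ha]

/-- Gains at different primes add up. -/
theorem norm_ge_of_gains (O : Subring ℂ) (hO : ∀ z ∈ O, z ≠ 0 → 1 ≤ ‖z‖) {z : ℂ} (hz : z ∈ O)
    (hz0 : z ≠ 0) (S : Finset ℕ) (hS : ∀ l ∈ S, l.Prime) (Γ : ℕ → ℝ)
    (h : ∀ l ∈ S, ∃ g : ℕ, Γ l ≤ g * Real.log l ∧ Dv O ((l : ℂ) ^ g) z) :
    Real.exp (∑ l ∈ S, Γ l) ≤ ‖z‖ := by
  choose! g hg hg' using h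
  have hdvd : (∏ l ∈ S, ((l : O) ^ g l)) ∣ (⟨z, hz⟩ : O) := by
    refine Finset.prod_dvd_of_coprime (fun a ha b hb hab => ?_) fun l hl => ?_
    · have h1 : Nat.Coprime a b := (Nat.coprime_primes (hS a ha) (hS b hb)).2 hab
      exact (Nat.Coprime.cast (R := O) h1).pow
    · obtain ⟨u, hu, hu'⟩ := hg' l hl
      exact ⟨⟨u, hu⟩, Subtype.ext (by simpa using hu')⟩
  obtain ⟨u, hu⟩ := hdvd
  have h1 : z = (∏ l ∈ S, (l : ℂ) ^ g l) * u := by
    have := congrArg (fun x : O => (x : ℂ)) hu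
    simpa using this
  have hu0 : (u : ℂ) ≠ 0 := by
    intro h0
    rw [h0, mul_zero] at h1
    exact hz0 h1
  have h2 := hO u u.2 hu0
  rw [h1, norm_mul, norm_prod, Real.exp_sum]
  refine le_trans ?_ (le_mul_of_one_le_right (Finset.prod_nonneg fun _ _ => norm_nonneg _) h2)
  refine Finset.prod_le_prod (fun _ _ => (Real.exp_pos _).le) fun l hl => ?_
  have hl0 : (0 : ℝ) < l := by exact_mod_cast (hS l hl).pos
  rw [norm_pow, Complex.norm_natCast]
  calc Real.exp (Γ l) ≤ Real.exp (g l * Real.log l) := Real.exp_le_exp.2 (hg l hl)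
    _ = (l : ℝ) ^ g l := by rw [Real.exp_nat_mul, Real.exp_log hl0]

/-- Clearing the denominators. -/
theorem det_scale {ι : Type*} [Fintype ι] [DecidableEq ι] {m : ℕ} (Y : ι → ℂ) (B : ℂ)
    (Q : ι → Fin m → ℂ[X]) (Δ : Fin m → ℂ) (s h : ι → ℕ) (α β : ι → Fin m → ℕ) :
    (Matrix.of fun i c => ent (Y i) (Q i) (s i) (h c) (α c) (β i)).det *
        ∏ c, (B ^ h c * ∏ k, Δ k ^ α c k) =
      (∏ i, ∏ k, Δ k ^ β i k) *
        (Matrix.of fun i c => ent (B * Y i) (fun k => C (Δ k) * Q i k) (s i) (h c) (α c)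
          (β i)).det := by
  rw [mul_comm, ← Matrix.det_mul_row, ← Matrix.det_mul_column]
  congr 1
  ext i c
  simp only [Matrix.of_apply, ent]
  have key : C (∏ k, Δ k ^ α c k) *
      (∏ k, C ((α c k).choose (β i k) : ℂ) * (Q i k) ^ (α c k - β i k)) =
      C (∏ k, Δ k ^ β i k) * ∏ k, C ((α c k).choose (β i k) : ℂ) *
        (C (Δ k) * Q i k) ^ (α c k - β i k) := by
    simp only [map_prod, ← Finset.prod_mul_distrib]
    refine Finset.prod_congr rfl fun k _ => ?_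
    rcases le_or_gt (β i k) (α c k) with hle | hlt
    · obtain ⟨e, he⟩ := Nat.exists_eq_add_of_le hle
      rw [he, Nat.add_sub_cancel_left, map_pow, map_pow, pow_add, mul_pow]
      ring
    · simp [Nat.choose_eq_zero_of_lt hlt]
  have h2 := congrArg (fun p : ℂ[X] => ((1 + X) ^ h c * p).coeff (s i)) key
  simp only [mul_left_comm ((1 + X : ℂ[X]) ^ h c), coeff_C_mul] at h2
  rw [mul_pow]
  linear_combination (B ^ h c * Y i ^ h c) * h2

end Vale.Agent.N021
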