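import Vale.Agent.P021Z.Ar.Endgame
import Vale.Agent.P021Z.An.Simplex
import Mathlib.Analysis.Calculus.Deriv.Pow
import Mathlib.Analysis.Calculus.Deriv.Slope
import Mathlib.Analysis.Calculus.Deriv.Mul
import Mathlib.Analysis.Calculus.Deriv.Add
import Mathlib.Analysis.SpecificLimits.Normed

/-! The choice of the parameters and the comparison of the two bounds. -/

namespace Vale.Agent.N021

open Filter Topology Vale.Agent.P021Z

theorem exists_sigma (n : ℕ) (a μ : ℝ) (h : (n : ℝ) + 1 < n * a + μ) :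
    ∃ σ : ℝ, 0 < σ ∧ σ < 1 ∧ 1 + (a + μ - 1) * σ ^ (n + 1) < a * σ + μ * σ ^ n := by
  set f : ℝ → ℝ := fun σ => a * σ + μ * σ ^ n - (1 + (a + μ - 1) * σ ^ (n + 1)) with hf
  have hd : HasDerivAt f (a * 1 + μ * (n * 1 ^ (n - 1)) -
      ((a + μ - 1) * (((n + 1 : ℕ) : ℝ) * 1 ^ (n + 1 - 1)))) 1 :=
    (((hasDerivAt_id (1 : ℝ)).const_mul a).add ((hasDerivAt_pow n (1 : ℝ)).const_mul μ)).sub
      (((hasDerivAt_pow (n + 1) (1 : ℝ)).const_mul (a + μ - 1)).const_add 1)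
  have hneg : a * 1 + μ * (n * 1 ^ (n - 1)) -
      ((a + μ - 1) * (((n + 1 : ℕ) : ℝ) * 1 ^ (n + 1 - 1))) < 0 := by
    simp only [one_pow, mul_one]
    push_cast
    nlinarith
  have h1 := (hasDerivAt_iff_tendsto_slope.1 hd).eventually (gt_mem_nhds hneg)
  have h2 : ∀ᶠ σ in 𝓝[<] (1 : ℝ), slope f 1 σ < 0 := h1.filter_mono (nhdsLT_le_nhdsNE 1)
  have h3 : ∀ᶠ σ in 𝓝[<] (1 : ℝ), 0 < σ :=
    (lt_mem_nhds (show (0 : ℝ) < 1 by norm_num)).filter_mono nhdsWithin_le_nhds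
  obtain ⟨σ, ⟨h4, h5⟩, h6⟩ := ((h2.and h3).and self_mem_nhdsWithin).exists
  have h7 : σ < 1 := h6
  refine ⟨σ, h5, h7, ?_⟩
  rw [slope_def_field, div_neg_iff] at h4
  have hf1 : f 1 = 0 := by simp [hf]
  rw [hf1, sub_zero] at h4
  rcases h4 with h4 | h4
  · have := h4.1
    simp only [hf] at this
    linarith
  · linarith [h4.2]

theorem params0 (n : ℕ) (a μ : ℝ) (h : (n : ℝ) + 1 < n * a + μ) (h1 : 1 ≤ a + μ) :
    ∃ σ κ η : ℝ, 0 < σ ∧ σ < 1 ∧ 0 < κ ∧ κ < 1 ∧ 0 < η ∧ η ≤ 1 / 2 ∧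
      1 + (a + μ - 1) * (κ * σ ^ (n + 1)) + 8 * η ≤
        (a * (κ ^ 2 * σ) + μ * (κ ^ 2 * σ ^ n)) * (1 - η) := by
  obtain ⟨σ, hσ0, hσ1, hσ⟩ := exists_sigma n a μ h
  set L := a * σ + μ * σ ^ n with hL
  set Rr := 1 + (a + μ - 1) * σ ^ (n + 1) with hR
  have hR0 : 0 ≤ (a + μ - 1) * σ ^ (n + 1) := mul_nonneg (by linarith) (by positivity)
  have h2 : ContinuousAt (fun κ : ℝ => κ ^ 2 * L) 1 := by fun_prop
  have h3 : ∀ᶠ κ in 𝓝 (1 : ℝ), Rr < κ ^ 2 * L := h2.eventually (lt_mem_nhds (by simpa using hσ))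
  have h4 : ∀ᶠ κ in 𝓝 (1 : ℝ), 0 < κ := lt_mem_nhds (by norm_num)
  obtain ⟨κ, ⟨h5, h6⟩, h7⟩ := (((h3.and h4).filter_mono nhdsWithin_le_nhds).and
    (self_mem_nhdsWithin (s := Set.Iio (1 : ℝ)) (a := 1))).exists
  have h8 : κ < 1 := h7
  set g := κ ^ 2 * L - Rr with hg
  have hg0 : 0 < g := by rw [hg]; linarith
  have hX : 0 < κ ^ 2 * L := by linarith
  have hden : 0 < 8 + κ ^ 2 * L := by linarith
  refine ⟨σ, κ, min (1 / 2) (g / (8 + κ ^ 2 * L)), hσ0, hσ1, h6, h8,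
    lt_min (by norm_num) (by positivity), min_le_left _ _, ?_⟩
  have h9 : min (1 / 2) (g / (8 + κ ^ 2 * L)) ≤ g / (8 + κ ^ 2 * L) := min_le_right _ _
  rw [le_div_iff₀ hden] at h9
  have e1 : a * (κ ^ 2 * σ) + μ * (κ ^ 2 * σ ^ n) = κ ^ 2 * L := by rw [hL]; ring
  have e2 : (a + μ - 1) * (κ * σ ^ (n + 1)) ≤ (a + μ - 1) * σ ^ (n + 1) := by
    have : (a + μ - 1) * (κ * σ ^ (n + 1)) = κ * ((a + μ - 1) * σ ^ (n + 1)) := by ring
    rw [this]
    nlinarith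
  rw [e1]
  nlinarith

theorem params1 (n : ℕ) (ν σ κ η v0 c1 : ℝ) (hν : 0 < ν) (hσ : 0 < σ) (hσ1 : σ < 1)
    (hκ : 0 < κ) (hκ1 : κ < 1) (hη : 0 < η) (hη1 : η ≤ 1) (hv0 : 1 ≤ v0) (hc : 0 < c1) :
    ∃ m J : ℕ, 0 < m ∧ 0 < J ∧ (J : ℝ) ^ n * (κ * σ ^ (n + 1)) ^ m * (c1 * J / η) < v0 ∧
      v0 ≤ c1 * J / η ∧
      ν * (κ ^ 2 * σ) ^ (m + 1) * v0 < η * (J : ℝ) ^ n * (κ * σ ^ (n + 1)) ^ m ∧
      (m + 1) * (κ ^ 2 * σ ^ n) ^ m / (c1 * J / η) < η * (κ * σ ^ (n + 1)) ^ m / v0 ∧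
      (m + 1) * (κ ^ 2 * σ) ^ m / v0 < η * (J : ℝ) ^ n * (κ * σ ^ (n + 1)) ^ m / v0 := by
  set Cb := 2 ^ (n + 1) * c1 / η ^ 2 + ν * v0 + v0 / c1 + 1 with hCb
  have t1 : Tendsto (fun m : ℕ => ((m : ℝ) * κ ^ m + κ ^ m) * Cb) atTop (𝓝 ((0 + 0) * Cb)) :=
    ((tendsto_self_mul_const_pow_of_lt_one hκ.le hκ1).add
      (tendsto_pow_atTop_nhds_zero_of_lt_one hκ.le hκ1)).mul_const _
  rw [add_zero, zero_mul] at t1
  have t2 := tendsto_pow_atTop_nhds_zero_of_lt_one hσ.le hσ1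
  obtain ⟨m, ⟨hm1, hm2⟩, hm3⟩ := (((t1.eventually (gt_mem_nhds hη)).and
    (t2.eventually (gt_mem_nhds (show 0 < c1 / v0 by positivity)))).and
    (eventually_gt_atTop 0)).exists
  set s := σ ^ m with hs
  set k := κ ^ m with hk
  have hs0 : 0 < s := by positivity
  have hs1 : s ≤ 1 := pow_le_one₀ hσ.le hσ1.le
  have hk0 : 0 < k := by positivity
  set J := ⌈1 / s⌉₊ with hJ
  have hJ1 : 1 / s ≤ J := Nat.le_ceil _
  have h1s : 1 ≤ 1 / s := by rw [le_div_iff₀ hs0]; linarith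
  have hJ2 : (J : ℝ) ≤ 2 / s := by
    have := (Nat.ceil_lt_add_one (show 0 ≤ 1 / s by positivity)).le
    have e : 2 / s = 1 / s + 1 / s := by ring
    linarith
  have hJ0 : (0 : ℝ) < J := by linarith
  have hJs : 1 ≤ J * s := by rwa [div_le_iff₀ hs0] at hJ1
  have hJs2 : J * s ≤ 2 := by rwa [le_div_iff₀ hs0] at hJ2
  have eθ : (κ * σ ^ (n + 1)) ^ m = k * s ^ (n + 1) := by
    rw [mul_pow, hs, ← pow_mul, ← pow_mul, mul_comm (n + 1) m]
  have eA : (κ ^ 2 * σ) ^ m = k ^ 2 * s := by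
    rw [mul_pow, hk, ← pow_mul, ← pow_mul, mul_comm 2 m]
  have eB : (κ ^ 2 * σ ^ n) ^ m = k ^ 2 * s ^ n := by
    rw [mul_pow, hk, hs, ← pow_mul, ← pow_mul, ← pow_mul, ← pow_mul, mul_comm 2 m, mul_comm n m]
  have hm0 : (0 : ℝ) ≤ m := Nat.cast_nonneg m
  have c1' : 0 < 2 ^ (n + 1) * c1 / η ^ 2 := by positivity
  have c2' : 0 < ν * v0 := by positivity
  have c3' : 0 < v0 / c1 := by positivity
  have hmk : 0 < (m + 1) * k := by positivity
  have hkk : k ≤ (m + 1) * k := by nlinarith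
  have hm1' : (m + 1) * k * Cb < η := by linarith
  have bb : ∀ x y : ℝ, 0 ≤ y → x ≤ (m + 1) * k → y ≤ Cb → x * y < η := fun x y hy h1 h2 =>
    lt_of_le_of_lt (mul_le_mul h1 h2 hy hmk.le) hm1'
  have b1 : k * (2 ^ (n + 1) * c1 / η ^ 2) < η := bb _ _ c1'.le hkk (by linarith)
  have b2 : k * (ν * v0) < η := bb _ _ c2'.le hkk (by linarith)
  have b3 : (m + 1) * k * (v0 / c1) < η := bb _ _ c3'.le le_rfl (by linarith)
  have b4 : (m + 1) * k < η := by simpa using bb _ 1 zero_le_one le_rfl (by linarith)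
  clear bb hm1 t1 t2 hm1'
  clear_value Cb
  have hJn : 1 ≤ (J * s) ^ n := one_le_pow₀ hJs
  have hlow : k * s ≤ (J : ℝ) ^ n * (k * s ^ (n + 1)) := by
    have e : (J : ℝ) ^ n * (k * s ^ (n + 1)) = k * s * (J * s) ^ n := by rw [mul_pow]; ring
    rw [e]
    exact le_mul_of_one_le_right (by positivity) hJn
  refine ⟨m, J, hm3, by exact_mod_cast hJ0, ?_, ?_, ?_, ?_, ?_⟩
  · rw [eθ]
    have e : (J : ℝ) ^ n * (k * s ^ (n + 1)) * (c1 * J / η) =
        (J * s) ^ (n + 1) * (k * c1 / η) := by rw [mul_pow]; ring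
    have h2 : (J * s) ^ (n + 1) ≤ 2 ^ (n + 1) := pow_le_pow_left₀ (by positivity) hJs2 _
    have h3 : 2 ^ (n + 1) * (k * c1 / η) = η * (k * (2 ^ (n + 1) * c1 / η ^ 2)) := by
      field_simp
    rw [e]
    calc (J * s) ^ (n + 1) * (k * c1 / η) ≤ 2 ^ (n + 1) * (k * c1 / η) := by gcongr
      _ = η * (k * (2 ^ (n + 1) * c1 / η ^ 2)) := h3
      _ < η * η := by gcongr
      _ ≤ 1 * 1 := by gcongr
      _ ≤ v0 := by linarith
  · rw [le_div_iff₀ hη]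
    rw [lt_div_iff₀ (by linarith)] at hm2
    calc v0 * η ≤ v0 * (J * s) := by gcongr; linarith
      _ = (s * v0) * J := by ring
      _ ≤ c1 * J := by gcongr
  · rw [eθ, pow_succ, eA, mul_assoc η]
    have h2 : κ ^ 2 * σ ≤ 1 := mul_le_one₀ (pow_le_one₀ hκ.le hκ1.le) hσ.le hσ1.le
    have h3 : 0 < k ^ 2 * s := by positivity
    calc ν * (k ^ 2 * s * (κ ^ 2 * σ)) * v0 ≤ ν * (k ^ 2 * s * 1) * v0 := by gcongr
      _ = (k * (ν * v0)) * (k * s) := by ring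
      _ < η * (k * s) := by gcongr
      _ ≤ _ := by gcongr
  · rw [eθ, eB, div_lt_div_iff₀ (by positivity) (by linarith)]
    have h3 : 0 < k * s ^ n * c1 := by positivity
    calc (m + 1) * (k ^ 2 * s ^ n) * v0 = ((m + 1) * k * (v0 / c1)) * (k * s ^ n * c1) := by
          field_simp
      _ < η * (k * s ^ n * c1) := by gcongr
      _ ≤ η * (k * s ^ n * c1) * (J * s / η) := by
          refine le_mul_of_one_le_right (by positivity) ?_
          rw [le_div_iff₀ hη]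
          linarith
      _ = _ := by ring
  · rw [eθ, eA]
    refine div_lt_div_of_pos_right ?_ (by linarith)
    calc (m + 1) * (k ^ 2 * s) = ((m + 1) * k) * (k * s) := by ring
      _ < η * (k * s) := by gcongr
      _ ≤ η * ((J : ℝ) ^ n * (k * s ^ (n + 1))) := by gcongr
      _ = _ := by ring

/-- A rapidly increasing family. -/
theorem exists_separated {A : Type} (s : A → ℝ) {P : A → Prop}
    (h : ∀ C : ℝ, ∃ a, C ≤ s a ∧ P a) (m : ℕ) (C : ℝ) :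
    ∃ a : Fin m → A, (∀ k, P (a k)) ∧ (∀ k, C ≤ s (a k)) ∧
      ∀ k k', k < k' → C * s (a k) ≤ s (a k') := by
  choose f hf using h
  let x : ℕ → ℝ := fun n => Nat.rec C
    (fun _ y => max C (max (C * s (f y)) (s (f y)))) n
  have hx0 : ∀ n, C ≤ x n := by
    intro n
    cases n with
    | zero => exact le_rfl
    | succ n => exact le_max_left _ _
  have hx1 : ∀ n, C * s (f (x n)) ≤ s (f (x (n + 1))) := fun n =>
    ((le_max_left _ _).trans (le_max_right _ _)).trans (hf (x (n + 1))).1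
  have hx2 : ∀ n, s (f (x n)) ≤ s (f (x (n + 1))) := fun n =>
    ((le_max_right _ _).trans (le_max_right _ _)).trans (hf (x (n + 1))).1
  have hmono : Monotone fun n => s (f (x n)) := monotone_nat_of_le_succ hx2
  refine ⟨fun k => f (x k), fun k => (hf _).2,
    fun k => (hx0 k).trans (hf _).1, fun k k' hk => (hx1 k).trans ?_⟩
  exact hmono (show (k : ℕ) + 1 ≤ (k' : ℕ) from hk)

theorem ev_count (m : ℕ) (u B S W b : ℝ) (hu : 0 < u) (hB : 0 < B) (hS : 0 ≤ S) (hW : 0 < W)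
    (hab : (m + 1) * B ^ m / u < b) :
    ∃ H3 : ℝ, ∀ H, H3 ≤ H → (((⌊H / u⌋₊ + 1) * ⌊(B * H + S) ^ m / (m.factorial * W)⌋₊ : ℕ) : ℝ) ≤
      b * H ^ (m + 1) / ((m + 1).factorial * W) := by
  obtain ⟨H2, hH2⟩ := Ar.eventually_shift_le _ b (u + S / B) (m + 1) hab
  refine ⟨max H2 0, fun H hH => ?_⟩
  have hH0 : 0 ≤ H := (le_max_right _ _).trans hH
  have h1 := hH2 H ((le_max_left _ _).trans hH)
  have hSB : 0 ≤ S / B := by positivity
  have h2 : ((⌊H / u⌋₊ : ℝ) + 1) ≤ (H + (u + S / B)) / u := by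
    have := Nat.floor_le (show 0 ≤ H / u by positivity)
    have e : (H + (u + S / B)) / u = H / u + 1 + S / B / u := by field_simp; ring
    have : 0 ≤ S / B / u := by positivity
    linarith
  have h3 : (⌊(B * H + S) ^ m / (m.factorial * W)⌋₊ : ℝ) ≤
      B ^ m * (H + (u + S / B)) ^ m / (m.factorial * W) := by
    refine (Nat.floor_le (by positivity)).trans ?_
    rw [← mul_pow]
    gcongr
    have e : B * (H + (u + S / B)) = B * H + S + B * u := by field_simp; ring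
    have : 0 ≤ B * u := by positivity
    linarith
  push_cast
  calc ((⌊H / u⌋₊ : ℝ) + 1) * ⌊(B * H + S) ^ m / (m.factorial * W)⌋₊
      ≤ (H + (u + S / B)) / u * (B ^ m * (H + (u + S / B)) ^ m / (m.factorial * W)) := by gcongr
    _ = (m + 1) * B ^ m / u * (H + (u + S / B)) ^ (m + 1) / ((m + 1).factorial * W) := by
        generalize H + (u + S / B) = y
        rw [Nat.factorial_succ]
        push_cast
        field_simp
        ring
    _ ≤ _ := by gcongr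

/-- The comparison of the two bounds, in logarithmic form. -/
theorem combine {ι : Type*} [Fintype ι] [Nonempty ι] (n : ℕ) (cf rf cd rd u : ι → ℝ)
    (Dn G G' μ a b : ℝ) (hcf : ∀ c, 0 ≤ cf c) (hrf : ∀ i, 0 ≤ rf i) (hcd : ∀ c, 0 ≤ cd c)
    (hrd : ∀ i, 0 < rd i)
    (hup : Dn ≤ ((Fintype.card ι).factorial : ℝ) * (∏ i, rf i) * (∏ c, cf c) *
      (2 ^ n) ^ Fintype.card ι * Real.exp (-G))
    (hlow : (∏ i, rd i) * Real.exp (G' - μ * ∑ i, u i) ≤ Dn * ∏ c, cd c)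
    (ha : ∀ c, cf c * cd c ≤ Real.exp a)
    (hb : ∀ i, rf i * Real.exp (μ * u i) ≤ Real.exp b * rd i) :
    G + G' ≤ (Fintype.card ι : ℝ) * (Real.log (Fintype.card ι) + n * Real.log 2 + a + b) := by
  have h := Ar.combine n 0 cf (fun i => rf i * Real.exp (μ * u i)) cd rd
    (Dn * Real.exp (μ * ∑ i, u i - G')) ((G + G') / Fintype.card ι) a b hcf
    (fun i => mul_nonneg (hrf i) (Real.exp_pos _).le) hcd hrd ?_ ?_ ha hb
  all_goals have hM0 : (0 : ℝ) < Fintype.card ι := by exact_mod_cast Fintype.card_pos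
  · rwa [Nat.cast_zero, sub_zero, div_mul_cancel₀ _ hM0.ne'] at h
  · rw [Nat.cast_zero, sub_zero, div_mul_cancel₀ _ hM0.ne', Finset.prod_mul_distrib,
      ← Real.exp_sum, ← Finset.mul_sum, pow_mul]
    refine (mul_le_mul_of_nonneg_right hup (Real.exp_pos _).le).trans (le_of_eq ?_)
    rw [neg_add, Real.exp_add, sub_eq_add_neg, Real.exp_add]
    ring
  · have := mul_le_mul_of_nonneg_right hlow (Real.exp_pos (μ * ∑ i, u i - G')).le
    rw [mul_assoc, ← Real.exp_add, show G' - μ * ∑ i, u i + (μ * ∑ i, u i - G') = 0 by ring,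
      Real.exp_zero, mul_one] at this
    linarith

end Vale.Agent.N021
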