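import Vale.Agent.N021.Zero
import Vale.Agent.N021.Det
import Vale.Agent.N021.Par

/-! The contradiction between the upper and the lower bound for a nonzero minor. -/

namespace Vale.Agent.N021

open Polynomial Vale.Agent.P021Z

theorem logTrunc_mem (O : Subring ℂ) (T : ℕ) :
    C ((Nat.lcmUpto T : ℕ) : ℂ) * logTrunc T ∈ PO O := by
  rw [lifts_iff_coeff_lifts]
  intro n
  obtain ⟨z, hz⟩ := Ar.logTrunc_coeff_int T n
  exact ⟨⟨z, intCast_mem O z⟩, by rw [coeff_C_mul, hz]; rfl⟩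

/-- The arithmetic lower bound. -/
theorem det_lower {ι κ : Type} [Fintype ι] [DecidableEq ι] [Fintype κ] {m : ℕ} (O : Subring ℂ)
    (hO : ∀ z ∈ O, z ≠ 0 → 1 ≤ ‖z‖) (j : ι → κ) (Y : κ → ℂ) (B : ℂ) (hB0 : B ≠ 0)
    (hBY : ∀ a, B * Y a ∈ O) (P : κ → Fin m → ℂ) (hP : ∀ a k, P a k ∈ O) (q : Fin m → ℂ)
    (hq : ∀ k, q k ∈ O) (hq0 : ∀ k, q k ≠ 0) (T : Fin m → ℕ) (w : Fin m → ℝ) (hw : ∀ k, 0 ≤ w k)
    (S₁ S₂ : Finset ℕ) (hS₁ : ∀ l ∈ S₁, l.Prime) (hS₂ : ∀ l ∈ S₂, l.Prime)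
    (hdis : Disjoint S₁ S₂) (μ : ℕ → ℝ) (hμ : ∀ l, 0 ≤ μ l)
    (h1 : ∀ l ∈ S₁, ∀ k, ∃ a : ℕ, μ l * w k ≤ a * Real.log l ∧ Dv O ((l : ℂ) ^ a) (q k))
    (h2 : ∀ l ∈ S₂, ∀ k, ∃ a : ℕ, μ l * w k ≤ a * Real.log l ∧
      ∀ b, Dv O ((l : ℂ) ^ a) (P b k))
    (hnum : ∀ l ∈ S₂, ∀ a, Y a = 1) (s h : ι → ℕ) (α β : ι → Fin m → ℕ)
    (hm sm : ℕ) (hh : ∀ c, h c ≤ hm) (hs : ∀ i, s i ≤ sm) (Z₁ Z₂ : ℝ) (hZ₁ : 0 ≤ Z₁)
    (hZ₂ : 0 ≤ Z₂) (N₁ N₂ : ℕ)
    (hN₁ : ∀ G : Finset (Fin m → ℕ), (∀ δ ∈ G, ∑ k, w k * δ k < Z₁) → G.card ≤ N₁)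
    (hN₂ : ∀ G : Finset (Fin m → ℕ), (∀ δ ∈ G, ∑ k, w k * δ k < Z₂) → G.card ≤ N₂)
    (hdet : (Matrix.of fun i c => ent (Y (j i)) (fun k => C (P (j i) k / q k) + logTrunc (T k))
      (s i) (h c) (α c) (β i)).det ≠ 0) :
    (∏ i, ∏ k, ‖q k * (Nat.lcmUpto (T k) : ℕ)‖ ^ β i k) * Real.exp (
      ((∑ l ∈ S₁, μ l) * (Z₁ * ((Fintype.card ι : ℝ) - (Fintype.card κ * (hm + 1) * N₁ : ℕ))) +
       (∑ l ∈ S₂, μ l) * (Z₂ * ((Fintype.card ι : ℝ) - ((sm + 1) * N₂ : ℕ)))) -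
        (∑ l ∈ S₁, μ l + ∑ l ∈ S₂, μ l) * ∑ i, ∑ k, w k * β i k) ≤
      ‖(Matrix.of fun i c => ent (Y (j i)) (fun k => C (P (j i) k / q k) + logTrunc (T k))
        (s i) (h c) (α c) (β i)).det‖ *
        ∏ c, (‖B‖ ^ h c * ∏ k, ‖q k * (Nat.lcmUpto (T k) : ℕ)‖ ^ α c k) := by
  classical
  set L : Fin m → ℂ := fun k => ((Nat.lcmUpto (T k) : ℕ) : ℂ) with hL
  have hL0 : ∀ k, L k ≠ 0 := fun k => by
    simp only [hL]
    exact_mod_cast (Nat.lcmUpto_pos _).ne'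
  have hLO : ∀ k, L k ∈ O := fun k => natCast_mem O _
  have hsc := det_scale (fun i => Y (j i)) B (fun i k => C (P (j i) k / q k) + logTrunc (T k))
    (fun k => q k * L k) s h α β
  have hQ : ∀ a k, C (q k * L k) * (C (P a k / q k) + logTrunc (T k)) =
      C (L k * P a k) + C (q k) * (C (L k) * logTrunc (T k)) := by
    intro a k
    have : q k * L k * (P a k / q k) = L k * P a k := by
      have := hq0 k
      field_simp
    rw [mul_add, ← map_mul, this, map_mul C (q k), mul_assoc]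
  simp only [hQ] at hsc
  set E' := (Matrix.of fun i c => ent (B * Y (j i))
    (fun k => C (L k * P (j i) k) + C (q k) * (C (L k) * logTrunc (T k))) (s i) (h c) (α c)
    (β i)).det with hE'
  have hG : ∀ k, C (L k) * logTrunc (T k) ∈ PO O := fun k => logTrunc_mem O _
  have hE'O : E' ∈ O := det_mem _ fun i c => O.mul_mem (O.pow_mem (hBY _) _) (coeff_mem
    (Subsemiring.mul_mem _ (one_add_X_pow_mem O _) (Subsemiring.prod_mem _ fun k _ =>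
      Subsemiring.mul_mem _ (C_mem_PO (natCast_mem O _)) (Subsemiring.pow_mem _
        (Subsemiring.add_mem _ (C_mem_PO (O.mul_mem (hLO k) (hP _ _)))
          (Subsemiring.mul_mem _ (C_mem_PO (hq k)) (hG k))) _))) _)
  have hE'0 : E' ≠ 0 := by
    intro h0
    rw [h0, mul_zero] at hsc
    refine mul_ne_zero hdet (Finset.prod_ne_zero_iff.2 fun c _ => mul_ne_zero (pow_ne_zero _ hB0)
      (Finset.prod_ne_zero_iff.2 fun k _ => pow_ne_zero _ (mul_ne_zero (hq0 k) (hL0 k)))) hsc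
  set U := ∑ i, ∑ k, w k * β i k with hU
  set Γ₁ := Z₁ * ((Fintype.card ι : ℝ) - (Fintype.card κ * (hm + 1) * N₁ : ℕ)) - U with hΓ₁
  set Γ₂ := Z₂ * ((Fintype.card ι : ℝ) - ((sm + 1) * N₂ : ℕ)) - U with hΓ₂
  have hg := norm_ge_of_gains O hO hE'O hE'0 (S₁ ∪ S₂)
    (fun l hl => (Finset.mem_union.1 hl).elim (hS₁ l) (hS₂ l))
    (fun l => if l ∈ S₁ then μ l * Γ₁ else μ l * Γ₂) (fun l hl => by
      by_cases hl1 : l ∈ S₁
      · simp only [hl1, if_true]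
        choose ex hex hd using h1 l hl1
        choose q' hq' hqq using hd
        have := gain_den O j (fun a => B * Y a) hBY (fun a k => L k * P a k)
          (fun a k => O.mul_mem (hLO k) (hP a k)) (fun k => C (q' k) * (C (L k) * logTrunc (T k)))
          (fun k => Subsemiring.mul_mem _ (C_mem_PO (hq' k)) (hG k)) s h α β hm hh l
          (hS₁ l hl1).two_le ex w (μ l) (hμ l) hw hex Z₁ hZ₁ N₁ hN₁
        have e : ∀ k, C ((l : ℂ) ^ ex k) * (C (q' k) * (C (L k) * logTrunc (T k))) =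
            C (q k) * (C (L k) * logTrunc (T k)) := fun k => by
          rw [← mul_assoc, ← map_mul, ← hqq k]
        simp only [e] at this
        exact this
      · have hl2 : l ∈ S₂ := (Finset.mem_union.1 hl).resolve_left hl1
        simp only [hl1, if_false]
        choose ex hex hd using h2 l hl2
        choose P' hP' hPP using hd
        have hB : ∀ a, B * Y a = B := fun a => by rw [hnum l hl2 a, mul_one]
        rcases isEmpty_or_nonempty ι with hι | ⟨⟨i0⟩⟩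
        · refine ⟨0, ?_, E', hE'O, by simp⟩
          have : Γ₂ ≤ 0 := by
            rw [hΓ₂, hU]
            simp only [Fintype.card_eq_zero, Nat.cast_zero, zero_sub, Finset.univ_eq_empty,
              Finset.sum_empty, sub_zero, mul_neg, neg_nonpos]
            positivity
          simpa using mul_nonpos_of_nonneg_of_nonpos (hμ l) this
        have := gain_num O B (hB (j i0) ▸ hBY (j i0)) (fun i k => L k * P' k (j i))
          (fun i k => O.mul_mem (hLO k) (hP' k _)) (fun k => C (q k) * (C (L k) * logTrunc (T k)))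
          (fun k => Subsemiring.mul_mem _ (C_mem_PO (hq k)) (hG k)) s h α β sm hs l
          (hS₂ l hl2).two_le ex w (μ l) (hμ l) hw hex Z₂ hZ₂ N₂ hN₂
        have e : ∀ i k, (l : ℂ) ^ ex k * (L k * P' k (j i)) = L k * P (j i) k := fun i k => by
          rw [hPP k (j i)]
          ring
        simp only [e] at this
        rw [hE']
        simp only [hB]
        exact this)
  rw [Finset.sum_union hdis, Finset.sum_congr rfl (fun l hl => if_pos hl),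
    Finset.sum_congr rfl (fun l hl => if_neg (Finset.disjoint_right.1 hdis hl)),
    ← Finset.sum_mul, ← Finset.sum_mul] at hg
  have hn := congrArg norm hsc
  simp only [norm_mul, norm_prod, norm_pow] at hn ⊢
  rw [hn]
  refine mul_le_mul_of_nonneg_left (le_trans (le_of_eq ?_) hg)
    (Finset.prod_nonneg fun _ _ => Finset.prod_nonneg fun _ _ => by positivity)
  congr 1
  rw [hΓ₁, hΓ₂]
  ring

/-- The inequality that a nonzero minor of the jet matrix forces. -/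
theorem minor_ineq {ι κ : Type} [Fintype ι] [DecidableEq ι] [Nonempty ι] [Fintype κ] {m : ℕ}
    (O : Subring ℂ)
    (hO : ∀ z ∈ O, z ≠ 0 → 1 ≤ ‖z‖) (j : ι → κ) (ζ : κ → ℂ) (B : ℂ) (hB0 : B ≠ 0)
    (hBY : ∀ a, B * Complex.exp (ζ a) ∈ O) (P : κ → Fin m → ℂ) (hP : ∀ a k, P a k ∈ O)
    (q : Fin m → ℂ) (hq : ∀ k, q k ∈ O) (hq0 : ∀ k, q k ≠ 0) (T : Fin m → ℕ) (w : Fin m → ℝ)
    (hw : ∀ k, w k = Real.log ‖q k‖)
    (S₁ S₂ : Finset ℕ) (hS₁ : ∀ l ∈ S₁, l.Prime) (hS₂ : ∀ l ∈ S₂, l.Prime)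
    (hdis : Disjoint S₁ S₂) (μ : ℕ → ℝ) (hμ : ∀ l, 0 ≤ μ l)
    (h1 : ∀ l ∈ S₁, ∀ k, ∃ a : ℕ, μ l * w k ≤ a * Real.log l ∧ Dv O ((l : ℂ) ^ a) (q k))
    (h2 : ∀ l ∈ S₂, ∀ k, ∃ a : ℕ, μ l * w k ≤ a * Real.log l ∧
      ∀ b, Dv O ((l : ℂ) ^ a) (P b k))
    (hnum : ∀ l ∈ S₂, ∀ a, Complex.exp (ζ a) = 1)
    (ν θ η φ lam v0 w0 r0 H Z Z₁ Z₂ : ℝ) (N N₁ N₂ : ℕ)
    (hν : 0 ≤ ν) (hν1 : 1 ≤ ν + (∑ l ∈ S₁, μ l + ∑ l ∈ S₂, μ l)) (hθ : 0 < θ) (hη : 0 < η)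
    (hv0 : 0 < v0) (hw0 : 0 < w0) (hZ : 0 ≤ Z) (hZ₁ : 0 ≤ Z₁) (hZ₂ : 0 ≤ Z₂)
    (hr0 : ∀ a, ‖ζ a‖ + 1 ≤ r0) (hr1 : 1 ≤ r0) (hR : 2 * r0 * Real.exp 1 ≤ η * w0)
    (hBw : ‖B‖ ≤ Real.exp (η * w0)) (hφ : 6 * φ ≤ η) (hlamv : lam ≤ η * v0) (hlam1 : 1 ≤ lam)
    (hT2 : ∀ k, (T k : ℝ) ≤ φ * w k + 1) (hw1 : ∀ k, 6 ≤ η * w k)
    (hw2 : ∀ k, Real.log (8 * (2 * r0 * Real.exp 1)) ≤ η * w k)
    (hclose : ∀ a k (t : ℂ), ‖t‖ = Real.exp (-lam) →
      ‖(C (P a k / q k) + logTrunc (T k)).eval t - (ζ a + Complex.log (1 + t))‖ ≤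
        Real.exp (-(ν * w k)))
    (s h : ι → ℕ) (α β : ι → Fin m → ℕ)
    (hβ : ∀ i, v0 * s i + ∑ k, w k / θ * β i k ≤ H)
    (hα : ∀ c, w0 * h c + ∑ k, w k * α c k ≤ H)
    (hN : ∀ F : Finset ((Fin m → ℕ) × ℕ),
      (∀ a ∈ F, (∑ k, ν * w k * a.1 k) + 1 * a.2 < Z) → F.card ≤ N)
    (hN₁ : ∀ G : Finset (Fin m → ℕ), (∀ δ ∈ G, ∑ k, w k * δ k < Z₁) → G.card ≤ N₁)
    (hN₂ : ∀ G : Finset (Fin m → ℕ), (∀ δ ∈ G, ∑ k, w k * δ k < Z₂) → G.card ≤ N₂)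
    (hdet : (Matrix.of fun i c => ent (Complex.exp (ζ (j i)))
      (fun k => C (P (j i) k / q k) + logTrunc (T k)) (s i) (h c) (α c) (β i)).det ≠ 0) :
    Z * ((Fintype.card ι : ℝ) - N) +
      ((∑ l ∈ S₁, μ l) * (Z₁ * ((Fintype.card ι : ℝ) -
        (Fintype.card κ * (⌊H / w0⌋₊ + 1) * N₁ : ℕ))) +
       (∑ l ∈ S₂, μ l) * (Z₂ * ((Fintype.card ι : ℝ) - ((⌊H / v0⌋₊ + 1) * N₂ : ℕ)))) ≤
      (Fintype.card ι : ℝ) * (Real.log (Fintype.card ι) + ((m + 1 : ℕ) : ℝ) * Real.log 2 +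
        (1 + 4 * η) * H + (η + (ν + (∑ l ∈ S₁, μ l + ∑ l ∈ S₂, μ l) - 1) * θ) * H) := by
  set Rr := 2 * r0 * Real.exp 1 with hRr
  set μt := ∑ l ∈ S₁, μ l + ∑ l ∈ S₂, μ l with hμt
  have hwp : ∀ k, 0 ≤ w k := fun k => by
    rw [hw]
    exact Real.log_nonneg (hO _ (hq k) (hq0 k))
  have hRr1 : 1 ≤ Rr := by
    have := Real.add_one_le_exp (1 : ℝ)
    rw [hRr]
    nlinarith
  have hexp : ∀ k, Real.exp (w k) = ‖q k‖ := fun k => by
    rw [hw, Real.exp_log (norm_pos_iff.2 (hq0 k))]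
  have hlow := det_lower O hO j (fun a => Complex.exp (ζ a)) B hB0 hBY P hP q hq hq0 T w hwp
    S₁ S₂ hS₁ hS₂ hdis μ hμ h1 h2 hnum s h α β ⌊H / w0⌋₊ ⌊H / v0⌋₊
    (fun c => Nat.le_floor (by
      rw [le_div_iff₀ hw0]
      have := hα c
      have : 0 ≤ ∑ k, w k * α c k :=
        Finset.sum_nonneg fun k _ => mul_nonneg (hwp k) (Nat.cast_nonneg _)
      linarith))
    (fun i => Nat.le_floor (by
      rw [le_div_iff₀ hv0]
      have := hβ i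
      have : 0 ≤ ∑ k, w k / θ * β i k :=
        Finset.sum_nonneg fun k _ => mul_nonneg (div_nonneg (hwp k) hθ.le) (Nat.cast_nonneg _)
      linarith)) Z₁ Z₂ hZ₁ hZ₂ N₁ N₂ hN₁ hN₂ hdet
  have hup := det_upper (fun i k => C (P (j i) k / q k) + logTrunc (T k)) (fun i => ζ (j i))
    s h α β (fun k => ν * w k) (Real.exp (-lam)) 1 r0 Rr Z N (Real.exp_pos _)
    (by
      have h1 : Real.exp (-lam) ≤ Real.exp (-1) := Real.exp_le_exp.2 (by linarith)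
      have h2 := Real.exp_neg_one_lt_d9
      linarith)
    (fun k => mul_nonneg hν (hwp k)) (by norm_num) hZ hRr1 (fun i => hr0 _) (by linarith)
    le_rfl (fun i k t ht => hclose _ k t ht) hN
  set Δ : Fin m → ℝ := fun k => ‖q k * (Nat.lcmUpto (T k) : ℕ)‖ with hΔ
  have hΔ1 : ∀ k, Real.exp (w k) ≤ Δ k := by
    intro k
    simp only [hΔ]
    rw [hexp, norm_mul, Complex.norm_natCast]
    exact le_mul_of_one_le_right (norm_nonneg _) (by exact_mod_cast Nat.lcmUpto_pos _)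
  have hΔ2 : ∀ k, Δ k ≤ Real.exp ((1 + 2 * η) * w k) := by
    intro k
    have h1 := Ar.lcm_le_exp (T k)
    have h2 : 6 * (T k : ℝ) ≤ 2 * η * w k := by
      have := hT2 k
      have := hw1 k
      nlinarith [mul_le_mul_of_nonneg_right hφ (hwp k)]
    calc Δ k = Real.exp (w k) * (Nat.lcmUpto (T k) : ℕ) := by
          simp only [hΔ]
          rw [hexp, norm_mul, Complex.norm_natCast]
      _ ≤ Real.exp (w k) * Real.exp (2 * η * w k) := by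
          gcongr
          exact h1.trans (Real.exp_le_exp.2 h2)
      _ = _ := by
          rw [← Real.exp_add]
          congr 1
          ring
  have hΔ0 : ∀ k, 0 < Δ k := fun k => (Real.exp_pos _).trans_le (hΔ1 k)
  refine combine (m + 1) _ _ (fun c => ‖B‖ ^ h c * ∏ k, Δ k ^ α c k)
    (fun i => ∏ k, Δ k ^ β i k) (fun i => ∑ k, w k * β i k) _ _ _ μt _ _ (fun c => by positivity)
    (fun i => by positivity)
    (fun c => mul_nonneg (by positivity) (Finset.prod_nonneg fun k _ => pow_nonneg (hΔ0 k).le _))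
    (fun i => Finset.prod_pos fun k _ => pow_pos (hΔ0 k) _) hup hlow (fun c => ?_) (fun i => ?_)
  · have e1 := Ar.column_bound (h c) (α c) w Δ Rr w0 η H
      (by linarith) hη.le hw0.le hR hw2 (fun k => (hΔ0 k).le) hΔ2 (hα c)
    have e2 : ‖B‖ ^ h c ≤ Real.exp (η * H) := by
      refine (pow_le_pow_left₀ (norm_nonneg _) hBw _).trans ?_
      rw [← Real.exp_nat_mul]
      refine Real.exp_le_exp.2 ?_
      have := hα c
      have : 0 ≤ ∑ k, w k * α c k :=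
        Finset.sum_nonneg fun k _ => mul_nonneg (hwp k) (Nat.cast_nonneg _)
      nlinarith
    calc _ = ‖B‖ ^ h c * ((Real.exp (h c * Rr) * (8 * Rr) ^ (∑ k, α c k)) *
          ∏ k, Δ k ^ α c k) := by ring
      _ ≤ Real.exp (η * H) * Real.exp ((1 + 3 * η) * H) :=
          mul_le_mul e2 e1 (mul_nonneg (by positivity)
            (Finset.prod_nonneg fun k _ => pow_nonneg (hΔ0 k).le _)) (Real.exp_pos _).le
      _ = _ := by rw [← Real.exp_add]; congr 1; ring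
  · have := Ar.row_bound (s i) (β i) w Δ lam v0 η (ν + μt) θ H hη.le
      hv0.le hwp hθ hν1 hlamv hΔ1 (hβ i)
    refine le_trans (le_of_eq ?_) this
    rw [← Real.exp_nat_mul, ← Real.exp_neg, ← Real.exp_add, ← Real.exp_add, ← Real.exp_add]
    congr 1
    simp only [mul_assoc, ← Finset.mul_sum]
    ring

/-- A good approximation. -/
def Appr {n : ℕ} (O : Subring ℂ) (la : Fin n → ℂ) (ν : ℝ) (S₁ S₂ : Finset ℕ) (μ : ℕ → ℝ)
    (x : ℂ × (Fin n → ℂ)) : Prop :=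
  x.1 ∈ O ∧ x.1 ≠ 0 ∧ (∀ k, x.2 k ∈ O) ∧
    (∀ k, ‖la k - x.2 k / x.1‖ ≤ Real.exp (-(ν * Real.log ‖x.1‖))) ∧
    (∀ l ∈ S₁, ∃ a : ℕ, μ l * Real.log ‖x.1‖ ≤ a * Real.log l ∧ Dv O ((l : ℂ) ^ a) x.1) ∧
    (∀ l ∈ S₂, ∃ a : ℕ, μ l * Real.log ‖x.1‖ ≤ a * Real.log l ∧ ∀ k, Dv O ((l : ℂ) ^ a) (x.2 k))

theorem centre_close {n J : ℕ} (la p : Fin n → ℂ) (q : ℂ) (hq : q ≠ 0) (a : Fin n → Fin J) (δ : ℝ)
    (h : ∀ k, ‖la k - p k / q‖ ≤ δ) :
    ‖(∑ k, ((a k : ℕ) : ℂ) * p k) / q - ∑ k, ((a k : ℕ) : ℂ) * la k‖ ≤ n * J * δ := by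
  rw [Finset.sum_div, ← Finset.sum_sub_distrib]
  refine (norm_sum_le _ _).trans ?_
  have : ∀ k, ‖((a k : ℕ) : ℂ) * p k / q - ((a k : ℕ) : ℂ) * la k‖ ≤ J * δ := fun k => by
    rw [mul_div_assoc, ← mul_sub, norm_mul, norm_sub_rev, Complex.norm_natCast]
    have h1 : ((a k : ℕ) : ℝ) ≤ J := by exact_mod_cast (a k).2.le
    exact mul_le_mul h1 (h k) (norm_nonneg _) (Nat.cast_nonneg _)
  refine (Finset.sum_le_sum fun k _ => this k).trans (le_of_eq ?_)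
  simp [mul_assoc]

theorem close_leaf (x ζ : ℂ) (T : ℕ) (c w ν ν₁ lam : ℝ) (hc : 0 ≤ c) (hlam : 1 ≤ lam)
    (hx : ‖x - ζ‖ ≤ c * Real.exp (-(ν₁ * w))) (hT : ν₁ * w ≤ lam * T)
    (hw : Real.log (c + 1) ≤ (ν₁ - ν) * w) (t : ℂ) (ht : ‖t‖ = Real.exp (-lam)) :
    ‖(C x + logTrunc T).eval t - (ζ + Complex.log (1 + t))‖ ≤ Real.exp (-(ν * w)) := by
  have ht2 : ‖t‖ ≤ 1 / 2 := by
    rw [ht]
    have h1 : Real.exp (-lam) ≤ Real.exp (-1) := Real.exp_le_exp.2 (by linarith)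
    have h2 := Real.exp_neg_one_lt_d9
    linarith
  have h1 := Ar.norm_logTrunc_sub_le T t ht2
  have h2 : ‖t‖ ^ T ≤ Real.exp (-(ν₁ * w)) := by
    rw [ht, ← Real.exp_nat_mul]
    exact Real.exp_le_exp.2 (by linarith)
  have h3 : (C x + logTrunc T).eval t - (ζ + Complex.log (1 + t)) =
      (x - ζ) + ((logTrunc T).eval t - Complex.log (1 + t)) := by
    simp only [eval_add, eval_C]
    ring
  have h5 : c + 1 ≤ Real.exp ((ν₁ - ν) * w) := by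
    rw [← Real.exp_log (show (0 : ℝ) < c + 1 by positivity)]
    exact Real.exp_le_exp.2 hw
  rw [h3]
  calc _ ≤ c * Real.exp (-(ν₁ * w)) + Real.exp (-(ν₁ * w)) :=
        (norm_add_le _ _).trans (add_le_add hx (h1.trans h2))
    _ = (c + 1) * Real.exp (-(ν₁ * w)) := by ring
    _ ≤ Real.exp ((ν₁ - ν) * w) * Real.exp (-(ν₁ * w)) := by gcongr
    _ = Real.exp (-(ν * w)) := by
        rw [← Real.exp_add]
        congr 1
        ring

theorem exists_gap {κ : Type} [Fintype κ] (ζ : κ → ℂ) (h : Function.Injective ζ) :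
    ∃ δ : ℝ, 0 < δ ∧ ∀ a b, a ≠ b → δ ≤ ‖ζ a - ζ b‖ := by
  classical
  rcases (Finset.univ.filter fun ab : κ × κ => ab.1 ≠ ab.2).eq_empty_or_nonempty with h0 | h0
  · refine ⟨1, one_pos, fun a b hab => ?_⟩
    have : (a, b) ∈ Finset.univ.filter fun ab : κ × κ => ab.1 ≠ ab.2 := by simpa using hab
    rw [h0] at this
    simp at this
  · obtain ⟨ab, hab, hmin⟩ := Finset.exists_min_image _ (fun ab : κ × κ => ‖ζ ab.1 - ζ ab.2‖) h0
    refine ⟨_, norm_pos_iff.2 (sub_ne_zero.2 fun e => (Finset.mem_filter.1 hab).2 (h e)),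
      fun a b hne => hmin (a, b) (by simpa using hne)⟩

theorem final_ineq {X Y η M H E : ℝ} (hM : 0 < M) (hH : 0 < H) (hη : 0 < η)
    (h1 : 1 + Y + 8 * η ≤ X * (1 - η)) (h2 : X * (1 - η) * (M * H) ≤ E)
    (h3 : E ≤ M * (η * H + (1 + 4 * η) * H + (η + Y) * H)) : False := by
  have e4 : 0 < η * (M * H) := by positivity
  have e3 : (1 + Y + 8 * η) * (M * H) ≤ X * (1 - η) * (M * H) := by gcongr
  nlinarith

end Vale.Agent.N021
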