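import Vale.Agent.P021.Defs

namespace Vale.Agent.N021

/-- `z` lies in the field `ℚ(√(-d))` (which is `ℚ` when `d = 0`). -/
def InQuad (d : ℕ) (z : ℂ) : Prop :=
  ∃ a b : ℚ, z = (a : ℂ) + (b : ℂ) * ((Real.sqrt d : ℝ) * Complex.I)

/-- Real numbers `θ_1, ..., θ_n` such that, for some `β_k` in a field `ℚ(√(-d))`, the numbers
`β_k θ_k` are logarithms of elements of that field and are linearly independent over `ℚ`. -/
def LogSystem {n : ℕ} (θ : Fin n → ℝ) : Prop :=
  ∃ (d : ℕ) (β : Fin n → ℂ), (∀ k, InQuad d (β k) ∧ InQuad d (Complex.exp (β k * θ k))) ∧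
    LinearIndependent ℚ (fun k => β k * (θ k : ℂ))

/-- The product of the `l`-adic absolute values of the integer `z` over the primes `l` in `S`. -/
noncomputable def absS (S : Finset ℕ) (z : ℤ) : ℝ := ∏ l ∈ S, ((padicNorm l z : ℚ) : ℝ)

end Vale.Agent.N021
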