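import Vale.Agent.N021.Real
import Vale.Agent.P021Z.Lower

/-! The theorem of Ridout type for `π`, linear forms, and examples. -/

namespace Vale.Agent.N021

open Vale.Agent.P021Z Vale.Agent.P021

theorem inQuad_rat (d : ℕ) (a : ℚ) : InQuad d a := ⟨a, 0, by simp⟩

theorem inQuad_one (d : ℕ) : InQuad d 1 := ⟨1, 0, by simp⟩

theorem logSystem_single (x : ℝ) (d : ℕ) (β : ℂ) (h1 : InQuad d β)
    (h2 : InQuad d (Complex.exp (β * x))) (h3 : β * x ≠ 0) : LogSystem (fun _ : Fin 1 => x) :=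
  ⟨d, fun _ => β, fun _ => ⟨h1, h2⟩, linearIndependent_unique_iff.2 h3⟩

theorem absS_ge (S : Finset ℕ) (hS : ∀ l ∈ S, l.Prime) {z : ℤ} (hz : z ≠ 0) :
    1 ≤ absS S z * |(z : ℝ)| := by
  have h0 : 0 < z.natAbs := Int.natAbs_pos.2 hz
  have h1 := lS_le S hS h0
  have h2 : |(z : ℝ)| = Real.exp (Real.log z.natAbs) := by
    rw [Real.exp_log (by exact_mod_cast h0), Nat.cast_natAbs, Int.cast_abs]
  rw [absS_eq S hS hz, h2, ← Real.exp_add, Real.one_le_exp_iff]
  linarith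

/-- The theorem of Ridout type. -/
theorem ridout (x : ℝ) (d : ℕ) (β : ℂ) (hβ : InQuad d β) (hx : Complex.exp (β * x) = 1)
    (hx0 : β * x ≠ 0) (S : Finset ℕ) (hS : ∀ l ∈ S, l.Prime) {ε : ℝ} (hε : 0 < ε) :
    {pq : ℤ × ℤ | IsCoprime pq.1 pq.2 ∧ 2 ≤ pq.2 ∧
      |x - (pq.1 : ℝ) / (pq.2 : ℝ)| * absS S pq.1 * absS S pq.2 <
        (pq.2 : ℝ) ^ (-(2 + ε))}.Finite := by
  by_contra hinf
  set T := {pq : ℤ × ℤ | IsCoprime pq.1 pq.2 ∧ 2 ≤ pq.2 ∧
      |x - (pq.1 : ℝ) / (pq.2 : ℝ)| * absS S pq.1 * absS S pq.2 <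
        (pq.2 : ℝ) ^ (-(2 + ε))} with hT
  have hp0 : ∀ pq ∈ T, pq.1 ≠ 0 := by
    rintro ⟨p, q⟩ ⟨h1, h2, -⟩ rfl
    have := Int.isUnit_iff.1 (isCoprime_zero_left.1 h1)
    simp only at h2 this
    omega
  have hκ : (2 : ℝ) ^ (-ε) < 1 := Real.rpow_lt_one_of_one_lt_of_neg (by norm_num) (by linarith)
  set D := |x| / (1 - (2 : ℝ) ^ (-ε)) + 1 with hD
  have hD1 : 1 ≤ D := by
    have : 0 ≤ |x| / (1 - (2 : ℝ) ^ (-ε)) := div_nonneg (abs_nonneg _) (by linarith)
    linarith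
  have hpD : ∀ pq ∈ T, |(pq.1 : ℝ)| ≤ D * pq.2 := by
    rintro ⟨p, q⟩ hpq
    have hp := hp0 _ hpq
    obtain ⟨-, h2, h3⟩ := hpq
    simp only at hp h2 h3 ⊢
    have hq2 : (2 : ℝ) ≤ q := by exact_mod_cast h2
    have hq0 : (0 : ℝ) < q := by linarith
    have h4 := absS_ge S hS hp
    have h5 := absS_ge S hS (show q ≠ 0 by omega)
    rw [abs_of_pos hq0] at h5
    have h6 : (q : ℝ) ^ (-(2 + ε)) = q ^ (-ε) / q ^ 2 := by
      rw [show -(2 + ε) = -ε - (2 : ℕ) by push_cast; ring, Real.rpow_sub hq0, Real.rpow_natCast]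
    have h7 : (q : ℝ) ^ (-ε) ≤ (2 : ℝ) ^ (-ε) :=
      Real.rpow_le_rpow_of_nonpos (by norm_num) hq2 (by linarith)
    have h8 : |x - p / q| ≤ (2 : ℝ) ^ (-ε) * (|(p : ℝ)| / q) := by
      have hpa : 0 ≤ |(p : ℝ)| := abs_nonneg _
      calc |x - p / q| ≤ |x - p / q| * (absS S p * |(p : ℝ)|) * (absS S q * q) := by
            have := abs_nonneg (x - p / q)
            rw [mul_assoc]
            exact le_mul_of_one_le_right this (one_le_mul_of_one_le_of_one_le h4 h5)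
        _ = (|x - p / q| * absS S p * absS S q) * (|(p : ℝ)| * q) := by ring
        _ ≤ (q ^ (-ε) / q ^ 2) * (|(p : ℝ)| * q) := by
            rw [← h6]
            gcongr
        _ = q ^ (-ε) * (|(p : ℝ)| / q) := by field_simp
        _ ≤ _ := by gcongr
    have h9 : |(p : ℝ)| / q ≤ |x| + |x - p / q| := by
      have := abs_sub_abs_le_abs_sub ((p : ℝ) / q) x
      rw [abs_sub_comm, abs_div, abs_of_pos hq0] at this
      linarith
    rw [← div_le_iff₀ hq0]
    have h10 : |(p : ℝ)| / q ≤ |x| / (1 - (2 : ℝ) ^ (-ε)) := by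
      rw [le_div_iff₀ (by linarith)]
      linarith
    linarith
  have hunb : ∀ C : ℝ, ∃ pq ∈ T, C ≤ Real.log pq.2 := by
    intro C
    by_contra hcon
    push Not at hcon
    apply hinf
    refine ((Set.finite_Icc (-⌈D * Real.exp C⌉) ⌈D * Real.exp C⌉).prod
      (Set.finite_Icc 0 ⌈Real.exp C⌉)).subset fun pq hpq => ?_
    have h2 := hpq.2.1
    have hq0 : (0 : ℝ) < pq.2 := by exact_mod_cast (show 0 < pq.2 by omega)
    have h3 : (pq.2 : ℝ) ≤ Real.exp C := by
      rw [← Real.exp_log hq0]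
      exact Real.exp_le_exp.2 (hcon pq hpq).le
    have h6 : |(pq.1 : ℝ)| ≤ ⌈D * Real.exp C⌉ :=
      ((hpD pq hpq).trans (by gcongr)).trans (Int.le_ceil _)
    have h7 : |pq.1| ≤ ⌈D * Real.exp C⌉ := by exact_mod_cast h6
    have h8 : pq.2 ≤ ⌈Real.exp C⌉ := by exact_mod_cast h3.trans (Int.le_ceil _)
    exact ⟨abs_le.1 h7, by omega, h8⟩
  set s : ℝ := (S.card : ℝ) with hs
  have hs0 : 0 ≤ s := Nat.cast_nonneg _
  set δ := ε / (8 * (s + 1)) with hδ
  have hδ0 : 0 < δ := by positivity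
  have hsδ : s * δ ≤ ε / 8 := by
    rw [hδ, mul_div_assoc', div_le_div_iff₀ (by positivity) (by norm_num)]
    nlinarith
  set lD := Real.log D with hlD
  have hlD0 : 0 ≤ lD := Real.log_nonneg hD1
  set Q : ℤ × ℕ → Prop := fun y => 1 + lD + 4 * lD / ε ≤ Real.log y.2 ∧ (y.1, (y.2 : ℤ)) ∈ T
    with hQ
  have h4 : 0 ≤ 4 * lD / ε := by positivity
  have hQ1 : ∀ y, Q y → 0 < y.2 ∧ y.1 ≠ 0 ∧ 1 ≤ Real.log y.2 ∧
      lS S y.1.natAbs ≤ lD + Real.log y.2 := by
    intro y hy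
    have h1 : 2 ≤ (y.2 : ℤ) := hy.2.2.1
    have h2 : y.1 ≠ 0 := hp0 _ hy.2
    have h3 := hpD _ hy.2
    have h5 : (0 : ℝ) < y.2 := by exact_mod_cast (show 0 < y.2 by omega)
    refine ⟨by omega, h2, by linarith [hy.1], (lS_le S hS (Int.natAbs_pos.2 h2)).trans ?_⟩
    rw [hlD, ← Real.log_mul (by linarith) h5.ne']
    refine Real.log_le_log (by exact_mod_cast Int.natAbs_pos.2 h2) ?_
    rw [Nat.cast_natAbs, Int.cast_abs]
    simpa using h3
  obtain ⟨μ₁, hμ₁, hx1⟩ := pigeon (X := ℤ × ℕ) S (fun y => Real.log y.2) Q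
    (fun l y => padicValNat l y.2 * Real.log l / Real.log y.2)
    (fun y hy l hl => by
      obtain ⟨h1, -, h2, -⟩ := hQ1 y hy
      have h3 := term_le S hl y.2
      have h5 := lS_le S hS h1
      refine ⟨div_nonneg h3.1 (by linarith), ?_⟩
      rw [div_le_iff₀ (by linarith)]
      linarith)
    (fun C => by
      obtain ⟨⟨p, q⟩, h1, h2⟩ := hunb (max C (1 + lD + 4 * lD / ε))
      have h3 : 2 ≤ q := h1.2.1
      obtain ⟨q', rfl⟩ := Int.eq_ofNat_of_zero_le (show 0 ≤ q by omega)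
      simp only [Int.cast_natCast] at h2
      exact ⟨(p, q'), (le_max_left _ _).trans h2, (le_max_right _ _).trans h2, h1⟩) δ hδ0
  obtain ⟨μ₂, hμ₂, hx2⟩ := pigeon (X := ℤ × ℕ) S (fun y => Real.log y.2) _
    (fun l y => padicValNat l y.1.natAbs * Real.log l / Real.log y.2)
    (fun y hy l hl => by
      obtain ⟨-, -, h2, h5⟩ := hQ1 y hy.1
      have h3 := term_le S hl y.1.natAbs
      refine ⟨div_nonneg h3.1 (by linarith), ?_⟩
      rw [div_le_iff₀ (by linarith)]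
      linarith [hy.1.1]) hx1 δ hδ0
  obtain ⟨y0, -, ⟨hy0, hy1⟩, hy2⟩ := hx2 0
  obtain ⟨k1, k2, k3, k4⟩ := hQ1 y0 hy0
  have hsum : ∑ l ∈ S, μ₁ l + ∑ l ∈ S, μ₂ l ≤ 2 + ε / 4 := by
    have h1 := (lS_le_of S y0.2 μ₁ δ _ (by linarith) hy1).1.trans (lS_le S hS k1)
    have h2 := (lS_le_of S y0.1.natAbs μ₂ δ _ (by linarith) hy2).1.trans k4
    have h3 : 4 * lD / ε ≤ Real.log y0.2 := by linarith [hy0.1]
    rw [div_le_iff₀ hε] at h3
    nlinarith
  set ν := 2 + ε - (∑ l ∈ S, μ₁ l + s * δ) - (∑ l ∈ S, μ₂ l + s * δ) with hν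
  refine core_real one_pos (fun _ => x) d (fun _ => β) (fun _ => ⟨hβ, hx ▸ inQuad_one d⟩)
    (linearIndependent_unique_iff.2 hx0) S hS μ₁ μ₂ hμ₁ hμ₂ (fun l hl => ?_)
    (fun _ _ => Or.inr fun _ => hx) ν (by linarith) (by push_cast; linarith) fun C => ?_
  · by_contra hc
    push Not at hc
    have hv : ∀ (N : ℕ) (μ : ℝ), 0 ≤ μ → μ ≠ 0 →
        μ ≤ padicValNat l N * Real.log l / Real.log y0.2 → l ∣ N := by
      intro N μ h1 h2 h3
      by_contra h5
      rw [padicValNat.eq_zero_of_not_dvd h5] at h3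
      simp at h3
      exact h2 (le_antisymm h3 h1)
    have h1 := hv _ _ (hμ₁ l) hc.1 (hy1 l hl).1
    have h2 := hv _ _ (hμ₂ l) hc.2 (hy2 l hl).1
    have h3 := hy0.2.1.isUnit_of_dvd' (Int.natCast_dvd.2 h2) (Int.natCast_dvd_natCast.2 h1)
    have h5 := Int.isUnit_iff.1 h3
    have := (hS l hl).two_le
    omega
  obtain ⟨⟨p, q⟩, h0, ⟨h1, h2⟩, h3⟩ := hx2 C
  obtain ⟨j1, j2, j3, -⟩ := hQ1 _ h1
  simp only at h0 h2 h3 j1 j2 j3
  have hq0 : (0 : ℝ) < q := by exact_mod_cast j1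
  have h5 := (lS_le_of S q μ₁ δ _ (by linarith) h2).2
  have h6 := (lS_le_of S p.natAbs μ₂ δ _ (by linarith) h3).2
  refine ⟨q, fun _ => p, h0, j1, fun _ => ?_, fun l hl => ⟨padicValNat l q,
    (le_div_iff₀ (by linarith)).1 (h2 l hl).1, pow_padicValNat_dvd⟩,
    fun l hl => ⟨padicValNat l p.natAbs, (le_div_iff₀ (by linarith)).1 (h3 l hl).1,
      fun _ => by exact_mod_cast Int.natCast_dvd.2 pow_padicValNat_dvd⟩⟩
  have h7 := h1.2.2.2
  simp only [Int.cast_natCast] at h7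
  refine le_of_not_gt fun hlt => absurd h7 (not_lt.2 ?_)
  rw [absS_eq S hS j2, absS_eq S hS (by exact_mod_cast j1.ne'), Int.natAbs_natCast,
    Real.rpow_def_of_pos hq0]
  calc _ ≤ Real.exp (-(ν * Real.log q)) * Real.exp (-lS S p.natAbs) * Real.exp (-lS S q) := by
        rw [← Real.exp_add, ← Real.exp_add, Real.exp_le_exp, hν]
        linarith
    _ ≤ _ := by gcongr

/-- The pigeonhole step of the transference principle. -/
theorem transfer {n : ℕ} (θ : Fin (n + 1) → ℝ) (x0 : ℤ) (x : Fin (n + 1) → ℤ) (k0 : Fin (n + 1))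
    (H D : ℕ) (hH : 0 < H) (hD : 0 < D) (hk0 : |x k0| = H) (hx : ∀ k, |x k| ≤ H)
    (hL : (D : ℝ) ^ (n + 1) * (2 * n + 5) * |x0 + ∑ k, x k * θ k| ≤ 1) :
    ∃ (q : ℕ) (p : Fin (n + 1) → ℤ), 0 < q ∧ q ≤ D ^ n * ((2 * n + 5) * H) ∧
      ∀ k, |q * θ k - p k| ≤ (n + 1) / D := by
  classical
  set L := x0 + ∑ k, x k * θ k with hLdef
  set Q := D ^ n * ((2 * n + 5) * H) with hQ
  have hD0 : (0 : ℝ) < D := by exact_mod_cast hD
  have hD1 : (1 : ℝ) ≤ D := by exact_mod_cast hD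
  have hH0 : (0 : ℝ) < H := by exact_mod_cast hH
  have hxr : ∀ k, |(x k : ℝ)| ≤ H := fun k => by exact_mod_cast hx k
  have hQL : Q * |L| ≤ H / D := by
    rw [le_div_iff₀ hD0, hQ]
    push_cast
    calc _ = H * ((D : ℝ) ^ (n + 1) * (2 * n + 5) * |L|) := by ring
      _ ≤ H * 1 := by gcongr
      _ = _ := mul_one _
  have hHD : (H : ℝ) / D ≤ H := div_le_self hH0.le hD1
  let sv : ℕ → ℤ := fun q => x0 * q + ∑ k, x k * ⌊q * θ k⌋
  have hsv : ∀ q : ℕ, (sv q : ℝ) = q * L - ∑ k, x k * Int.fract (q * θ k) := by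
    intro q
    simp only [sv, hLdef, Int.fract]
    push_cast
    rw [mul_add, Finset.mul_sum, add_sub_assoc, ← Finset.sum_sub_distrib, mul_comm]
    congr 1
    exact Finset.sum_congr rfl fun k _ => by ring
  let f : ℕ → (Fin n → ℕ) × ℤ := fun q =>
    (fun u => ⌊D * Int.fract (q * θ (k0.succAbove u))⌋₊, sv q)
  obtain ⟨q1, hq1, q2, hq2, hne, hf⟩ := Finset.exists_ne_map_eq_of_card_lt_of_maps_to
    (s := Finset.range (Q + 1))
    (t := (Fintype.piFinset fun _ : Fin n => Finset.range D) ×ˢ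
      Finset.Icc (-(((n + 2) * H : ℕ) : ℤ)) (((n + 2) * H : ℕ) : ℤ)) (by
      rw [Finset.card_product, Fintype.card_piFinset, Finset.card_range, Int.card_Icc]
      simp only [Finset.card_range, Finset.prod_const, Finset.card_univ, Fintype.card_fin]
      have : ((((n + 2) * H : ℕ) : ℤ) + 1 - -(((n + 2) * H : ℕ) : ℤ)).toNat ≤ (2 * n + 5) * H := by
        rw [Int.toNat_le]
        push_cast
        nlinarith
      exact Nat.lt_succ_of_le (Nat.mul_le_mul_left _ this)) (f := f) (by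
      intro q hq
      have hq' : (q : ℝ) ≤ Q := by exact_mod_cast Nat.lt_succ_iff.1 (Finset.mem_range.1 hq)
      refine Finset.mem_coe.2 (Finset.mem_product.2 ⟨Fintype.mem_piFinset.2 fun u =>
        Finset.mem_range.2 ?_, Finset.mem_Icc.2 (abs_le.1 ?_)⟩)
      · rw [Nat.floor_lt (mul_nonneg hD0.le (Int.fract_nonneg _))]
        exact mul_lt_of_lt_one_right hD0 (Int.fract_lt_one _)
      · have h1 : |(sv q : ℝ)| ≤ ((n + 2) * H : ℕ) := by
          rw [hsv]
          refine (abs_sub _ _).trans ?_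
          have h2 : |(q : ℝ) * L| ≤ H := by
            rw [abs_mul, Nat.abs_cast]
            exact (mul_le_mul_of_nonneg_right hq' (abs_nonneg _)).trans (hQL.trans hHD)
          have h3 : |∑ k, (x k : ℝ) * Int.fract (q * θ k)| ≤ ∑ _k : Fin (n + 1), (H : ℝ) := by
            refine (Finset.abs_sum_le_sum_abs _ _).trans (Finset.sum_le_sum fun k _ => ?_)
            rw [abs_mul, abs_of_nonneg (Int.fract_nonneg ((q : ℝ) * θ k))]
            exact (mul_le_of_le_one_right (abs_nonneg _) (Int.fract_lt_one _).le).trans (hxr k)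
          simp only [Finset.sum_const, Finset.card_univ, Fintype.card_fin, nsmul_eq_mul] at h3
          push_cast at h3 ⊢
          linarith
        exact_mod_cast h1)
  wlog hlt : q1 < q2 generalizing q1 q2
  · exact this q2 hq2 q1 hq1 hne.symm hf.symm (lt_of_le_of_ne (not_lt.1 hlt) hne.symm)
  obtain ⟨q, rfl⟩ := Nat.exists_eq_add_of_le hlt.le
  have hqQ : q ≤ Q := by
    have := Finset.mem_range.1 hq2
    omega
  set e : Fin (n + 1) → ℝ := fun k => Int.fract ((q1 + q : ℕ) * θ k) - Int.fract (q1 * θ k)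
    with he
  have he1 : ∀ u, |e (k0.succAbove u)| ≤ 1 / D := by
    intro u
    have h1 := congrFun (congrArg Prod.fst hf) u
    simp only [f] at h1
    have h2 := Nat.floor_le (mul_nonneg hD0.le (Int.fract_nonneg (q1 * θ (k0.succAbove u))))
    have h3 := Nat.floor_le (mul_nonneg hD0.le
      (Int.fract_nonneg ((q1 + q : ℕ) * θ (k0.succAbove u))))
    have h4 := Nat.lt_floor_add_one (D * Int.fract (q1 * θ (k0.succAbove u)))
    have h5 := Nat.lt_floor_add_one (D * Int.fract ((q1 + q : ℕ) * θ (k0.succAbove u)))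
    rw [h1] at h2 h4
    rw [le_div_iff₀ hD0, ← abs_of_pos hD0, ← abs_mul, abs_le]
    simp only [he]
    constructor <;> nlinarith
  have he2 : ∑ k, x k * e k = q * L := by
    have h1 : (sv q1 : ℝ) = sv (q1 + q) := by exact_mod_cast congrArg Prod.snd hf
    rw [hsv, hsv] at h1
    simp only [he, mul_sub, Finset.sum_sub_distrib]
    push_cast at h1 ⊢
    linarith
  have he3 : |e k0| ≤ (n + 1) / D := by
    rw [Fin.sum_univ_succAbove _ k0] at he2
    have h1 : |∑ u, (x (k0.succAbove u) : ℝ) * e (k0.succAbove u)| ≤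
        ∑ _u : Fin n, (H : ℝ) * (1 / D) := by
      refine (Finset.abs_sum_le_sum_abs _ _).trans (Finset.sum_le_sum fun u _ => ?_)
      rw [abs_mul]
      exact mul_le_mul (hxr _) (he1 u) (abs_nonneg _) hH0.le
    simp only [Finset.sum_const, Finset.card_univ, Fintype.card_fin, nsmul_eq_mul] at h1
    have h2 : |(q : ℝ) * L| ≤ H / D := by
      rw [abs_mul, Nat.abs_cast]
      exact (mul_le_mul_of_nonneg_right (by exact_mod_cast hqQ) (abs_nonneg _)).trans hQL
    have h3 : |(x k0 : ℝ)| = H := by exact_mod_cast hk0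
    have h4 : H * |e k0| ≤ H * ((n + 1) / D) := by
      rw [← h3, ← abs_mul, eq_sub_of_add_eq he2, h3]
      refine (abs_sub _ _).trans ((add_le_add h2 h1).trans (le_of_eq ?_))
      ring
    exact le_of_mul_le_mul_left h4 hH0
  refine ⟨q, fun k => ⌊(q1 + q : ℕ) * θ k⌋ - ⌊q1 * θ k⌋, by omega, hqQ, fun k => ?_⟩
  have h1 : q * θ k - ((⌊(q1 + q : ℕ) * θ k⌋ - ⌊q1 * θ k⌋ : ℤ) : ℝ) = e k := by
    simp only [he, Int.fract]
    push_cast
    ring
  rw [h1]
  by_cases hk : k = k0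
  · rw [hk]; exact he3
  · obtain ⟨u, rfl⟩ := Fin.exists_succAbove_eq hk
    refine (he1 u).trans ?_
    gcongr
    linarith [Nat.cast_nonneg (α := ℝ) n]

theorem absS_empty (z : ℤ) : absS ∅ z = 1 := Finset.prod_empty

/-- Linear forms. -/
theorem linform {n : ℕ} (hn : 0 < n) {θ : Fin n → ℝ} (hθ : LogSystem θ) {ε : ℝ} (hε : 0 < ε) :
    ∃ c : ℝ, 0 < c ∧ ∀ (x0 : ℤ) (x : Fin n → ℤ), x ≠ 0 →
      c ≤ ‖x‖ ^ (n + ε) * |x0 + ∑ k, x k * θ k| := by
  obtain ⟨n, rfl⟩ := Nat.exists_eq_succ_of_ne_zero hn.ne'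
  have hn0 : (0 : ℝ) ≤ n := Nat.cast_nonneg n
  set γ := 1 + ε / (n + 1) with hγ
  have hγ1 : 1 < γ := by
    have : 0 < ε / (n + 1) := by positivity
    linarith
  have hγ0 : 0 < γ := by linarith
  have hγi : γ⁻¹ < 1 := inv_lt_one_of_one_lt₀ hγ1
  have hγi0 : 0 < γ⁻¹ := inv_pos.2 hγ0
  set ε' := (1 - γ⁻¹) / (n + 1) with hε'
  have hε'0 : 0 < ε' := div_pos (by linarith) (by linarith)
  have hε'1 : (1 + ε') * (n + γ⁻¹) ≤ n + 1 := by
    have : ε' * (n + 1) = 1 - γ⁻¹ := by rw [hε']; field_simp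
    nlinarith
  obtain ⟨c, hc, hsim⟩ := simul hn hθ ∅ (by simp) hε'0
  set K0 := (1 + ε') * Real.log (2 * n + 5) + (n + 1) * Real.log (n + 1) - Real.log c with hK0
  set lC := γ * (|K0| + 1) with hlC
  have hlC0 : 0 < lC := by positivity
  refine ⟨1 / ((2 * Real.exp lC) ^ (n + 1) * (2 * n + 5)), by positivity, fun x0 x hx => ?_⟩
  obtain ⟨k0, -, hk0⟩ := Finset.exists_max_image Finset.univ (fun k => (x k).natAbs)
    Finset.univ_nonempty
  set H := (x k0).natAbs with hH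
  have hH0 : 0 < H := by
    by_contra h0
    refine hx (funext fun k => ?_)
    have := hk0 k (Finset.mem_univ k)
    simp only [Pi.zero_apply]
    omega
  have hH1 : (1 : ℝ) ≤ H := by exact_mod_cast hH0
  have hHx : (H : ℝ) ≤ ‖x‖ := by
    have := norm_le_pi_norm x k0
    rwa [Int.norm_eq_abs, ← Int.cast_abs, ← Nat.cast_natAbs] at this
  set lH := Real.log H with hlH
  have hlH0 : 0 ≤ lH := Real.log_nonneg hH1
  set y := Real.exp (lC + γ * lH) with hy
  have hy1 : 1 ≤ y := Real.one_le_exp (by positivity)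
  set D := ⌈y⌉₊ with hD
  have hD1 : y ≤ D := Nat.le_ceil _
  have hD2 : (D : ℝ) ≤ 2 * y := by
    have := (Nat.ceil_lt_add_one (show 0 ≤ y by linarith)).le
    linarith
  have hD0 : (0 : ℝ) < D := by linarith
  have hbig : 1 < (D : ℝ) ^ (n + 1) * (2 * n + 5) * |x0 + ∑ k, x k * θ k| := by
    by_contra hL
    obtain ⟨q, p, hq, hqQ, he⟩ := transfer θ x0 x k0 H D hH0 (by exact_mod_cast hD0)
      (by rw [hH, Int.natCast_natAbs])
      (fun k => by rw [← Int.natCast_natAbs]; exact_mod_cast hk0 k (Finset.mem_univ k))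
      (not_lt.1 hL)
    obtain ⟨k, hk⟩ := hsim q p hq
    rw [absS_empty, mul_one] at hk
    have hq0 : (0 : ℝ) < q := by exact_mod_cast hq
    have hQ : (q : ℝ) ≤ D ^ n * ((2 * n + 5) * H) := by exact_mod_cast hqQ
    have h1 : c ≤ (D ^ n * ((2 * n + 5) * H) : ℝ) ^ (1 + ε') * ((n + 1) / D) ^ (n + 1) := by
      refine hk.trans ?_
      gcongr
      exact he k
    have h2 := Real.log_le_log hc h1
    rw [Real.log_mul (by positivity) (by positivity), Real.log_rpow (by positivity),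
      Real.log_mul (by positivity) (by positivity), Real.log_mul (by positivity) (by positivity),
      Real.log_pow, Real.log_pow, Real.log_div (by positivity) hD0.ne'] at h2
    set lD := Real.log D with hlD
    have h3 : lC + γ * lH ≤ lD := (Real.le_log_iff_exp_le hD0).2 hD1
    have h4 : lH ≤ γ⁻¹ * lD - (|K0| + 1) := by
      have := mul_le_mul_of_nonneg_left h3 hγi0.le
      rw [mul_add, hlC, ← mul_assoc, ← mul_assoc, inv_mul_cancel₀ hγ0.ne'] at this
      linarith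
    have h5 : 0 ≤ lD := by nlinarith
    have h6 := mul_le_mul_of_nonneg_right hε'1 h5
    have h7 := mul_le_mul_of_nonneg_left h4 (show 0 ≤ 1 + ε' by linarith)
    have h8 := le_abs_self K0
    have h9 : 0 ≤ ε' * (|K0| + 1) := by positivity
    push_cast at h2
    rw [← hlH] at h2
    nlinarith
  rw [div_le_iff₀ (by positivity)]
  have h1 : (D : ℝ) ^ (n + 1) ≤ (2 * Real.exp lC) ^ (n + 1) * ‖x‖ ^ (((n + 1 : ℕ) : ℝ) + ε) := by
    calc (D : ℝ) ^ (n + 1) ≤ (2 * y) ^ (n + 1) := by gcongr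
      _ = (2 * Real.exp lC) ^ (n + 1) * (H : ℝ) ^ (((n + 1 : ℕ) : ℝ) + ε) := by
          rw [hy, Real.exp_add, ← mul_assoc, mul_pow, ← Real.exp_nat_mul,
            Real.rpow_def_of_pos (by linarith), ← hlH, hγ]
          congr 2
          push_cast
          field_simp
      _ ≤ _ := by gcongr
  calc (1 : ℝ) ≤ (D : ℝ) ^ (n + 1) * (2 * n + 5) * |x0 + ∑ k, x k * θ k| := hbig.le
    _ ≤ (2 * Real.exp lC) ^ (n + 1) * ‖x‖ ^ (((n + 1 : ℕ) : ℝ) + ε) * (2 * n + 5) *
        |x0 + ∑ k, x k * θ k| := by gcongr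
    _ = _ := by ring

/-- The irrationality exponent of a single logarithm. -/
theorem mu_eq_two {x : ℝ} (hx : LogSystem (fun _ : Fin 1 => x)) : irrationalityExponent x = 2 := by
  have key : ∀ ε : ℝ, 0 < ε → ∃ c : ℝ, 0 < c ∧ ∀ (q : ℕ) (p : ℤ), 0 < q →
      c ≤ (q : ℝ) ^ (2 + ε) * |x - p / q| := by
    intro ε hε
    obtain ⟨c, hc, h⟩ := simul one_pos hx ∅ (by simp) hε
    refine ⟨c, hc, fun q p hq => ?_⟩
    obtain ⟨_, hk⟩ := h q (fun _ => p) hq
    have hq0 : (0 : ℝ) < q := by exact_mod_cast hq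
    have e1 : |q * x - p| = q * |x - p / q| := by
      rw [← abs_of_pos hq0, ← abs_mul, abs_of_pos hq0]
      congr 1
      field_simp
    rwa [absS_empty, mul_one, pow_one, e1, ← mul_assoc, ← Real.rpow_add_one hq0.ne',
      show 1 + ε + 1 = 2 + ε by ring] at hk
  refine irrationalityExponent_eq_two ?_ fun ν hν => ?_
  · rintro ⟨r, rfl⟩
    obtain ⟨c, hc, h⟩ := key 1 one_pos
    have := h r.den r.num r.den_pos
    rw [← Rat.cast_def, sub_self, abs_zero, mul_zero] at this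
    linarith
  · by_contra hinf
    obtain ⟨c, hc, h⟩ := key ((ν - 2) / 2) (by linarith)
    obtain ⟨pq, hpq, hC⟩ := Ar.unbounded_of_infinite x ν (by linarith) _ hinf
      (fun pq h => ⟨h.2.1, h.2.2.2⟩) (-Real.log c / ((ν - 2) / 2))
    obtain ⟨-, h2, -, h4⟩ := hpq
    obtain ⟨q, hq⟩ := Int.eq_ofNat_of_zero_le (show 0 ≤ pq.2 by omega)
    have hq0 : 0 < q := by omega
    have hq0' : (0 : ℝ) < q := by exact_mod_cast hq0
    rw [hq, Int.cast_natCast] at hC h4
    have h5 := (h q pq.1 hq0).trans_lt (mul_lt_mul_of_pos_left h4 (by positivity))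
    rw [← Real.rpow_add hq0', Real.rpow_def_of_pos hq0', ← Real.log_lt_iff_lt_exp hc] at h5
    rw [div_le_iff₀ (by linarith)] at hC
    linarith

theorem sys_pi_sqrt {d : ℕ} (hd : 0 < d) :
    InQuad d (2 * ((Real.sqrt d : ℝ) * Complex.I)) ∧
    Complex.exp (2 * ((Real.sqrt d : ℝ) * Complex.I) * (Real.pi * Real.sqrt d : ℝ)) = 1 ∧
    2 * ((Real.sqrt d : ℝ) * Complex.I) * ((Real.pi * Real.sqrt d : ℝ) : ℂ) ≠ 0 := by
  have h1 : ((Real.sqrt d : ℝ) : ℂ) ^ 2 = d := by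
    rw [← Complex.ofReal_pow, Real.sq_sqrt (Nat.cast_nonneg d)]
    simp
  have h2 : 2 * ((Real.sqrt d : ℝ) * Complex.I) * ((Real.pi * Real.sqrt d : ℝ) : ℂ) =
      d * (2 * Real.pi * Complex.I) := by
    push_cast
    linear_combination (2 * Real.pi * Complex.I) * h1
  refine ⟨⟨0, 2, by simp⟩, ?_, ?_⟩
  · rw [h2, Complex.exp_nat_mul_two_pi_mul_I]
  · rw [h2]
    exact mul_ne_zero (by exact_mod_cast hd.ne') Complex.two_pi_I_ne_zero

theorem mu_pi_sqrt {d : ℕ} (hd : 0 < d) : irrationalityExponent (Real.pi * Real.sqrt d) = 2 := by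
  obtain ⟨h1, h2, h3⟩ := sys_pi_sqrt hd
  exact mu_eq_two (logSystem_single _ d _ h1 (h2 ▸ inQuad_one d) h3)

theorem mu_log {r : ℚ} (hr : 0 < r) (hr1 : r ≠ 1) : irrationalityExponent (Real.log r) = 2 := by
  have hr' : (0 : ℝ) < r := by exact_mod_cast hr
  refine mu_eq_two (logSystem_single _ 0 1 (inQuad_one 0) ?_ ?_)
  · rw [one_mul, ← Complex.ofReal_exp, Real.exp_log hr']
    exact_mod_cast inQuad_rat 0 r
  · rw [one_mul]
    exact_mod_cast Real.log_ne_zero_of_pos_of_ne_one hr' (by exact_mod_cast hr1)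

theorem mu_arctan {r : ℚ} (hr : r ≠ 0) : irrationalityExponent (Real.arctan r) = 2 := by
  refine mu_eq_two (logSystem_single _ 1 (2 * Complex.I) ⟨0, 2, by simp⟩
    ⟨2 / (1 + r ^ 2) - 1, 2 * r / (1 + r ^ 2), ?_⟩ ?_)
  · have h1 := Real.cos_sq_arctan (r : ℝ)
    have h2 : Real.sin (Real.arctan r) = r * Real.cos (Real.arctan r) := by
      have := Real.tan_arctan (r : ℝ)
      rwa [Real.tan_eq_sin_div_cos, div_eq_iff (Real.cos_arctan_pos _).ne'] at this
    have h3 : Real.cos (2 * Real.arctan r) = 2 / (1 + r ^ 2) - 1 := by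
      rw [Real.cos_two_mul, h1]
      ring
    have h4 : Real.sin (2 * Real.arctan r) = 2 * r / (1 + r ^ 2) := by
      rw [Real.sin_two_mul, h2, show 2 * (r * Real.cos (Real.arctan r)) * Real.cos (Real.arctan r) =
        2 * r * Real.cos (Real.arctan r) ^ 2 by ring, h1]
      ring
    rw [show 2 * Complex.I * (Real.arctan r : ℝ) = ((2 * Real.arctan r : ℝ) : ℂ) * Complex.I by
      push_cast; ring, Complex.exp_mul_I, ← Complex.ofReal_cos, ← Complex.ofReal_sin, h3, h4]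
    simp
  · refine mul_ne_zero (mul_ne_zero two_ne_zero Complex.I_ne_zero) ?_
    exact_mod_cast fun h => hr (by exact_mod_cast Real.arctan_eq_zero_iff.1 h)

theorem sys_pi_log {n : ℕ} (a : Fin n → ℚ) (ha : ∀ k, 0 < a k)
    (hind : ∀ e : Fin n → ℤ, ∏ k, a k ^ e k = 1 → e = 0) :
    LogSystem (Fin.cons Real.pi (fun k => Real.log (a k)) : Fin (n + 1) → ℝ) := by
  have ha' : ∀ k, (0 : ℝ) < a k := fun k => by exact_mod_cast ha k
  refine ⟨1, Fin.cons (2 * Complex.I) (fun _ => 1), fun k => ?_, ?_⟩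
  · refine Fin.cases ?_ (fun k => ?_) k
    · simp only [Fin.cons_zero]
      refine ⟨⟨0, 2, by simp⟩, ?_⟩
      rw [show 2 * Complex.I * (Real.pi : ℂ) = 2 * Real.pi * Complex.I by ring,
        Complex.exp_two_pi_mul_I]
      exact inQuad_one 1
    · simp only [Fin.cons_succ]
      refine ⟨inQuad_one 1, ?_⟩
      rw [one_mul, ← Complex.ofReal_exp, Real.exp_log (ha' k)]
      exact_mod_cast inQuad_rat 1 (a k)
  · rw [← LinearIndependent.iff_fractionRing ℤ ℚ, Fintype.linearIndependent_iff]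
    intro g hg
    rw [Fin.sum_univ_succ] at hg
    simp only [Fin.cons_zero, Fin.cons_succ, one_mul, zsmul_eq_mul] at hg
    have h1 := congrArg Complex.im hg
    have h2 := congrArg Complex.re hg
    simp only [Complex.add_im, Complex.im_sum, Complex.mul_im, Complex.mul_re, Complex.intCast_re,
      Complex.intCast_im, Complex.ofReal_re, Complex.ofReal_im, Complex.I_re, Complex.I_im,
      Complex.re_ofNat, Complex.im_ofNat, Complex.zero_im, Complex.add_re, Complex.re_sum,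
      Complex.zero_re, mul_zero, zero_mul, add_zero, zero_add, sub_zero, mul_one,
      Finset.sum_const_zero, sub_self] at h1 h2
    have h3 : g 0 = 0 := by
      have := Real.pi_pos
      have h4 : (g 0 : ℝ) = 0 := by
        rcases mul_eq_zero.1 h1 with h | h
        · exact h
        · linarith
      exact_mod_cast h4
    have h5 := hind (fun k => g k.succ) (by
      have h6 : ∏ k, (a k : ℝ) ^ g k.succ = 1 := by
        have := congrArg Real.exp h2
        rw [Real.exp_sum, Real.exp_zero] at this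
        rw [← this]
        refine Finset.prod_congr rfl fun k _ => ?_
        rw [← Real.log_zpow, Real.exp_log (zpow_pos (ha' k) _)]
      exact_mod_cast h6)
    intro k
    exact Fin.cases h3 (fun k => congrFun h5 k) k

/-- Denominators that are powers of a fixed base. -/
theorem pow_base {x : ℝ} (hx : LogSystem (fun _ : Fin 1 => x)) {b : ℕ} (hb : 0 < b) {ε : ℝ}
    (hε : 0 < ε) : ∃ c : ℝ, 0 < c ∧ ∀ (N : ℕ) (p : ℤ),
      c ≤ ((b : ℝ) ^ N) ^ (1 + ε) * |x - p / (b : ℝ) ^ N| := by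
  have hS : ∀ l ∈ b.primeFactors, l.Prime := fun l hl => Nat.prime_of_mem_primeFactors hl
  obtain ⟨c, hc, h⟩ := simul one_pos hx b.primeFactors hS hε
  refine ⟨c, hc, fun N p => ?_⟩
  have hq : 0 < b ^ N := pow_pos hb N
  obtain ⟨_, hk⟩ := h (b ^ N) (fun _ => p) hq
  have hb0 : (0 : ℝ) < b := by exact_mod_cast hb
  have hq0 : (0 : ℝ) < (b : ℝ) ^ N := by positivity
  have e0 : lS b.primeFactors (b ^ N) = N * Real.log b := by
    have h1 : Real.log b = ∑ l ∈ b.primeFactors, padicValNat l b * Real.log l := by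
      conv_lhs => rw [← Nat.prod_factorization_pow_eq_self hb.ne', Finsupp.prod,
        Nat.support_factorization]
      push_cast
      rw [Real.log_prod fun l hl => by
        have : (0 : ℝ) < l := by exact_mod_cast (hS l hl).pos
        positivity]
      exact Finset.sum_congr rfl fun l hl => by rw [Real.log_pow, Nat.factorization_def _ (hS l hl)]
    rw [h1, lS, Finset.mul_sum]
    refine Finset.sum_congr rfl fun l hl => ?_
    have := Fact.mk (hS l hl)
    rw [padicValNat.pow b N]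
    push_cast
    ring
  rw [absS_eq _ hS (by exact_mod_cast hq.ne'), Int.natAbs_natCast, e0, Real.exp_neg,
    Real.exp_nat_mul, Real.exp_log hb0, pow_one] at hk
  push_cast at hk
  have e1 : |(b : ℝ) ^ N * x - p| = (b : ℝ) ^ N * |x - p / (b : ℝ) ^ N| := by
    rw [← abs_of_pos hq0, ← abs_mul, abs_of_pos hq0]
    congr 1
    field_simp
  rwa [e1, mul_assoc, ← mul_assoc ((b : ℝ) ^ N)⁻¹, inv_mul_cancel₀ hq0.ne', one_mul] at hk

end Vale.Agent.N021
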