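import Vale.Agent.N021.Core

/-! The main contradiction. -/

namespace Vale.Agent.N021

open MvPolynomial Vale.Agent.P021Z

theorem le_of_div {x y z C : ℝ} (hz : 0 < z) (h1 : |x| / z ≤ C) (h2 : C ≤ y) : x ≤ z * y := by
  have h3 := h1.trans h2
  rw [div_le_iff₀ hz] at h3
  have := le_abs_self x
  linarith

set_option maxHeartbeats 1600000 in
theorem core {n : ℕ} (hn : 0 < n) (O : Subring ℂ) (hO : ∀ z ∈ O, z ≠ 0 → 1 ≤ ‖z‖)
    (la : Fin n → ℂ) (hla : LinearIndependent ℚ la) (b : ℂ) (hb : b ∈ O) (hb0 : b ≠ 0)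
    (hbl : ∀ k, b * Complex.exp (la k) ∈ O) (S₁ S₂ : Finset ℕ) (hS₁ : ∀ l ∈ S₁, l.Prime)
    (hS₂ : ∀ l ∈ S₂, l.Prime) (hdis : Disjoint S₁ S₂) (μ : ℕ → ℝ) (hμ : ∀ l, 0 ≤ μ l)
    (hnum : ∀ l ∈ S₂, ∀ k, Complex.exp (la k) = 1) (ν₁ : ℝ) (hν₁ : 0 < ν₁)
    (hgap : (n : ℝ) + 1 < n * (ν₁ + ∑ l ∈ S₂, μ l) + ∑ l ∈ S₁, μ l)
    (happ : ∀ C : ℝ, ∃ x : ℂ × (Fin n → ℂ), C ≤ Real.log ‖x.1‖ ∧ Appr O la ν₁ S₁ S₂ μ x) :
    False := by
  classical
  set μ₁ := ∑ l ∈ S₁, μ l with hμ₁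
  set μ₂ := ∑ l ∈ S₂, μ l with hμ₂
  have hμ₁0 : 0 ≤ μ₁ := Finset.sum_nonneg fun l _ => hμ l
  have hμ₂0 : 0 ≤ μ₂ := Finset.sum_nonneg fun l _ => hμ l
  have hn1 : (1 : ℝ) ≤ n := by exact_mod_cast hn
  obtain ⟨ν, hν0, hνν', hgap'⟩ : ∃ ν : ℝ, 0 < ν ∧ ν < ν₁ ∧
      (n : ℝ) + 1 < n * (ν + μ₂) + μ₁ := by
    have h1 : ((n : ℝ) + 1 - μ₁) / n - μ₂ < ν₁ := by
      rw [sub_lt_iff_lt_add, div_lt_iff₀ (by linarith)]
      linarith
    obtain ⟨ν, h2, h3⟩ := exists_between (max_lt h1 hν₁)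
    refine ⟨ν, (le_max_right _ _).trans_lt h2, h3, ?_⟩
    have h4 := (le_max_left _ _).trans_lt h2
    rw [sub_lt_iff_lt_add, div_lt_iff₀ (by linarith)] at h4
    linarith
  have hνν : 0 < ν₁ - ν := by linarith
  have hone : 1 ≤ ν + μ₂ + μ₁ := by
    by_contra hc
    nlinarith
  obtain ⟨σ, κ, η, hσ, hσ1, hκ, hκ1, hη, hη1, hmain⟩ := params0 n (ν + μ₂) μ₁ hgap' hone
  set θ := κ * σ ^ (n + 1) with hθdef
  set A := κ ^ 2 * σ with hAdef
  set B₁ := κ ^ 2 * σ ^ n with hB₁def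
  have hθ : 0 < θ := by positivity
  have hθ1 : θ < 1 := mul_lt_one_of_nonneg_of_lt_one_left hκ.le hκ1 (pow_le_one₀ hσ.le hσ1.le)
  have hA : 0 < A := by positivity
  have hB₁ : 0 < B₁ := by positivity
  set φ := η / 6 with hφdef
  have hφ0 : 0 < φ := by positivity
  set lam := 1 + ν₁ / φ with hlamdef
  have hlam1 : 1 ≤ lam := by
    have : 0 < ν₁ / φ := by positivity
    linarith
  have hlamφ : ν₁ ≤ lam * φ := by
    rw [hlamdef, add_mul, div_mul_cancel₀ _ hφ0.ne']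
    linarith
  set v0 := 1 + lam / η + 1 / (φ * θ) with hv0def
  have d1 : 0 < lam / η := by positivity
  have d2 : 0 < 1 / (φ * θ) := by positivity
  have hv0 : 1 ≤ v0 := by linarith
  have hv00 : 0 < v0 := by linarith
  have hlamv : lam ≤ η * v0 := by
    have : lam / η ≤ v0 := by linarith
    rw [div_le_iff₀ hη] at this
    linarith
  have hTv : 1 ≤ φ * v0 * θ := by
    have : 1 / (φ * θ) ≤ v0 := by linarith
    rw [div_le_iff₀ (by positivity)] at this
    linarith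
  set Λ := ∑ k, ‖la k‖ with hΛ
  have hΛ0 : 0 ≤ Λ := Finset.sum_nonneg fun _ _ => norm_nonneg _
  set c1 := 6 * (Λ + 1) + n * ‖b‖ with hc1
  have hnb : 0 ≤ n * ‖b‖ := by positivity
  have hc10 : 0 < c1 := by linarith
  obtain ⟨m, J, hm, hJ, hvol, hvw, hNM, hN1M, hN2M⟩ := params1 n ν σ κ η v0 c1 hν0 hσ hσ1 hκ hκ1
    hη (by linarith) hv0 hc10
  rw [← hθdef] at hvol hNM hN1M hN2M
  rw [← hAdef] at hNM hN2M
  rw [← hB₁def] at hN1M
  set w0 := c1 * J / η with hw0def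
  have hηw0 : η * w0 = c1 * J := by rw [hw0def]; field_simp
  clear_value θ A B₁ lam v0 w0
  have hJ1 : (1 : ℝ) ≤ J := by exact_mod_cast hJ
  have hw00 : 0 < w0 := by linarith
  set K : ℝ := (J : ℝ) ^ n with hK
  have hK1 : 1 ≤ K := one_le_pow₀ hJ1
  have hcardK : (Fintype.card (Fin n → Fin J) : ℝ) = K := by simp [hK]
  set ζ : (Fin n → Fin J) → ℂ := fun a => ∑ k, ((a k : ℕ) : ℂ) * la k with hζ
  have hζinj : Function.Injective ζ := by
    intro a a' h
    have h1 := Fintype.linearIndependent_iff.1 hla (fun k => ((a k : ℕ) : ℚ) - ((a' k : ℕ) : ℚ)) (by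
      simp only [sub_smul, Finset.sum_sub_distrib, Rat.smul_def, Rat.cast_natCast]
      exact sub_eq_zero.2 h)
    funext k
    have h2 := sub_eq_zero.1 (h1 k)
    exact Fin.ext (by exact_mod_cast h2)
  obtain ⟨δ, hδ, hδζ⟩ := exists_gap ζ hζinj
  set r0 := J * Λ + 1 with hr0
  have hr01 : 1 ≤ r0 := by
    have : 0 ≤ J * Λ := by positivity
    linarith
  have hζr : ∀ a, ‖ζ a‖ + 1 ≤ r0 := by
    intro a
    have : ‖ζ a‖ ≤ J * Λ := by
      rw [hΛ, Finset.mul_sum]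
      refine (norm_sum_le _ _).trans (Finset.sum_le_sum fun k _ => ?_)
      rw [norm_mul, Complex.norm_natCast]
      have h1 : ((a k : ℕ) : ℝ) ≤ J := by exact_mod_cast (a k).2.le
      gcongr
    linarith
  have hR : 2 * r0 * Real.exp 1 ≤ η * w0 := by
    have h1 := Real.exp_one_lt_d9
    have h2 : r0 ≤ J * (Λ + 1) := by rw [hr0]; linarith
    calc 2 * r0 * Real.exp 1 ≤ 2 * (J * (Λ + 1)) * 3 := by gcongr; linarith
      _ = 6 * (Λ + 1) * J := by ring
      _ ≤ c1 * J := by gcongr; linarith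
      _ = _ := hηw0.symm
  set B := b ^ (n * J) with hB
  have hBw : ‖B‖ ≤ Real.exp (η * w0) := by
    rw [hB, norm_pow]
    calc ‖b‖ ^ (n * J) ≤ Real.exp ‖b‖ ^ (n * J) :=
          pow_le_pow_left₀ (norm_nonneg _) (by linarith [Real.add_one_le_exp ‖b‖]) _
      _ = Real.exp (n * ‖b‖ * J) := by rw [← Real.exp_nat_mul]; congr 1; push_cast; ring
      _ ≤ _ := by
          rw [hηw0]
          gcongr
          linarith
  have hBY : ∀ a, B * Complex.exp (ζ a) ∈ O := by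
    intro a
    have e : B * Complex.exp (ζ a) =
        ∏ k, b ^ (J - a k) * (b * Complex.exp (la k)) ^ (a k : ℕ) := by
      simp only [hζ, hB]
      rw [Complex.exp_sum, mul_comm n J, pow_mul,
        show (b ^ J) ^ n = ∏ _k : Fin n, b ^ J by simp, ← Finset.prod_mul_distrib]
      refine Finset.prod_congr rfl fun k _ => ?_
      rw [Complex.exp_nat_mul, mul_pow, ← mul_assoc, ← pow_add, Nat.sub_add_cancel (a k).2.le]
    rw [e]
    exact O.prod_mem fun k _ => O.mul_mem (O.pow_mem hb _) (O.pow_mem (hbl k) _)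
  obtain ⟨μ0, hμ1, hμ2, hμ0⟩ := Ar.exists_mu (K * θ ^ m * w0) v0 (m + 1) hvol
  set c : ℝ := ((μ0 - 1) / (2 * (m + 2) ^ 2)) ^ (m + 1) * θ ^ m with hc
  have hc0 : 0 < c := by
    have : 0 < μ0 - 1 := by linarith
    positivity
  set L8 := Real.log (8 * (2 * r0 * Real.exp 1)) with hL8
  set L2 := Real.log (n * J + 1) with hL2
  set L3 := Real.log (2 * (n * J) / δ + 1) with hL3
  set Cc : ℝ := 1 + 1 / (θ * c) + v0 / c + |L8| / η + |6| / η + |L2| / (ν₁ - ν) + |L3| / ν₁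
    with hC
  have c1' : 0 < 1 / (θ * c) := by positivity
  have c2 : 0 < v0 / c := by positivity
  have c3 : 0 ≤ |L8| / η := by positivity
  have c4 : 0 ≤ |6| / η := by positivity
  have c5 : 0 ≤ |L2| / (ν₁ - ν) := by positivity
  have c6 : 0 ≤ |L3| / ν₁ := by positivity
  obtain ⟨x, hx, hqC, hsep⟩ := exists_separated (fun x : ℂ × (Fin n → ℂ) => Real.log ‖x.1‖)
    happ m Cc
  set wq : Fin m → ℝ := fun k => Real.log ‖(x k).1‖ with hwq
  replace hqC : ∀ k, Cc ≤ wq k := hqC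
  replace hsep : ∀ k k', k < k' → Cc * wq k ≤ wq k' := hsep
  have hwq1 : ∀ k, 1 ≤ wq k := fun k => le_trans (by linarith) (hqC k)
  have hwq0 : ∀ k, 0 < wq k := fun k => lt_of_lt_of_le one_pos (hwq1 k)
  set T : Fin m → ℕ := fun k => ⌈φ * wq k⌉₊ with hT
  have hT1 : ∀ k, φ * wq k ≤ T k := fun k => Nat.le_ceil _
  have hT2 : ∀ k, (T k : ℝ) ≤ φ * wq k + 1 := fun k =>
    (Nat.ceil_lt_add_one (mul_pos hφ0 (hwq0 k)).le).le
  set P : (Fin n → Fin J) → Fin m → ℂ := fun a k => ∑ u, ((a u : ℕ) : ℂ) * (x k).2 u with hP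
  have hPζ : ∀ a k, ‖P a k / (x k).1 - ζ a‖ ≤ n * J * Real.exp (-(ν₁ * wq k)) := fun a k =>
    centre_close la (x k).2 (x k).1 (hx k).2.1 a _ (hx k).2.2.2.1
  set ctr : (Fin n → Fin J) → Fin (m + 1) → ℂ := fun a =>
    Fin.cons (Complex.exp (ζ a)) (fun k => P a k / (x k).1) with hctr
  set w : Fin (m + 1) → ℝ := Fin.cons w0 wq with hw
  set v : Fin (m + 1) → ℝ := Fin.cons v0 (fun k => wq k / θ) with hv
  have hvpos : ∀ i, 0 < v i := by
    intro i
    refine Fin.cases ?_ (fun k => ?_) i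
    · simp only [hv, Fin.cons_zero]
      linarith
    · simp only [hv, Fin.cons_succ]
      exact div_pos (hwq0 k) hθ
  have hS : Setup θ w v one1 T := by
    refine ⟨hθ, hθ1, fun i => ?_, hvpos, hvw, fun k => rfl, fun k => ?_, fun k => one_ne_zero⟩
    · refine Fin.cases ?_ (fun k => ?_) i
      · simp only [hw, Fin.cons_zero]
        linarith
      · exact hwq0 k
    · simp only [hv, Fin.cons_succ, Fin.cons_zero]
      rw [div_le_iff₀ hθ]
      have h1 : wq k ≤ φ * v0 * θ * wq k := le_mul_of_one_le_left (hwq0 k).le hTv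
      have h2 : φ * wq k * (v0 * θ) ≤ (T k + 1) * (v0 * θ) := by
        have := hT1 k
        gcongr
        linarith
      nlinarith
  have hsep' : ∀ i l, i < l → v i < c * w l := by
    intro i l hil
    rcases Fin.eq_zero_or_eq_succ l with rfl | ⟨k', rfl⟩
    · exact absurd hil (Fin.not_lt_zero i)
    rcases Fin.eq_zero_or_eq_succ i with rfl | ⟨k, rfl⟩
    · simp only [hv, hw, Fin.cons_zero, Fin.cons_succ]
      have h1 : v0 / c < wq k' := lt_of_lt_of_le (by linarith) (hqC k')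
      rw [div_lt_iff₀ hc0] at h1
      linarith
    · simp only [hv, hw, Fin.cons_succ]
      have h1 := hsep k k' (Fin.succ_lt_succ_iff.1 hil)
      have h2 : 1 / (θ * c) * wq k < Cc * wq k := mul_lt_mul_of_pos_right (by linarith) (hwq0 k)
      have h3 : 1 / (θ * c) * wq k < wq k' := h2.trans_le h1
      rw [div_mul_eq_mul_div, one_mul, div_lt_iff₀ (by positivity)] at h3
      rw [div_lt_iff₀ hθ]
      linarith
  have hdist : ∀ a a', a ≠ a' → ∀ l : Fin m, ctr a l.succ ≠ ctr a' l.succ := by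
    intro a a' haa l he
    simp only [hctr, Fin.cons_succ] at he
    have h1 := hδζ a a' haa
    have h2 : ζ a - ζ a' = (P a' l / (x l).1 - ζ a') - (P a l / (x l).1 - ζ a) := by
      rw [he]; ring
    have h3 := (norm_sub_le _ _).trans (add_le_add (hPζ a' l) (hPζ a l))
    rw [← h2] at h3
    have h4 : L3 ≤ ν₁ * wq l := le_of_div hν₁ (by linarith) (hqC l)
    have h5 : 2 * (n * J) / δ + 1 ≤ Real.exp (ν₁ * wq l) := by
      rw [← Real.exp_log (show 0 < 2 * (n * J : ℝ) / δ + 1 by positivity)]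
      exact Real.exp_le_exp.2 h4
    have h6 : 2 * (n * J) < δ * Real.exp (ν₁ * wq l) := by
      have : 2 * (n * J : ℝ) / δ < Real.exp (ν₁ * wq l) := by linarith
      rw [div_lt_iff₀ hδ] at this
      linarith
    have h7 : δ * Real.exp (ν₁ * wq l) ≤ (n * J * Real.exp (-(ν₁ * wq l)) +
        n * J * Real.exp (-(ν₁ * wq l))) * Real.exp (ν₁ * wq l) := by
      gcongr
      exact h1.trans h3
    rw [← add_mul, mul_assoc, ← Real.exp_add, neg_add_cancel, Real.exp_zero] at h7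
    linarith
  obtain ⟨H0, hH0⟩ := exists_minor hm hS (c := ctr) (fun a => Complex.exp_ne_zero _) hdist hμ1 hμ2
    (by
      simp only [hw, hv, Fin.cons_zero, hcardK]
      linarith) hsep'
  set Wq := ∏ k, wq k with hWq
  have hWq0 : 0 < Wq := Finset.prod_pos fun k _ => hwq0 k
  set Sq := ∑ k, wq k with hSq
  have hSq0 : 0 ≤ Sq := Finset.sum_nonneg fun k _ => (hwq0 k).le
  have hPv : ∏ i, v i = v0 * (Wq / θ ^ m) := by
    rw [Fin.prod_univ_succ]
    simp only [hv, Fin.cons_zero, Fin.cons_succ]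
    rw [Finset.prod_div_distrib, Finset.prod_const, Finset.card_univ, Fintype.card_fin]
  have hPv0 : 0 < ∏ i, v i := Finset.prod_pos fun i _ => hvpos i
  obtain ⟨H1, hH1⟩ := Ar.eventually_log_le (K / ((m + 1).factorial * ∏ i, v i)) (∑ i, v i)
    (((m + 1 : ℕ) : ℝ) * Real.log 2) η (m + 1) (by positivity)
    (Finset.sum_nonneg fun i _ => (hvpos i).le) hη
  obtain ⟨H2, hH2⟩ := Ar.eventually_shift_le (ν * A ^ (m + 1) * v0) (η * K * θ ^ m)
    ((1 + ∑ k, ν * wq k) / (ν * A)) (m + 1) hNM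
  obtain ⟨H3, hH3⟩ := ev_count m w0 B₁ Sq Wq _ hw00 hB₁ hSq0 hWq0 hN1M
  obtain ⟨H4, hH4⟩ := ev_count m v0 A Sq Wq _ hv00 hA hSq0 hWq0 hN2M
  obtain ⟨H, hHH0, hHH1, hHH2, hHH3, hHH4, hH1'⟩ : ∃ H, H0 ≤ H ∧ H1 ≤ H ∧ H2 ≤ H ∧ H3 ≤ H ∧
      H4 ≤ H ∧ 1 ≤ H := ⟨max (max (max H0 H1) (max H2 H3)) (max H4 1), by simp, by simp, by simp,
        by simp, by simp, by simp⟩
  have hHpos : 0 < H := by linarith
  obtain ⟨col, hcol, hdet⟩ := hH0 H hHH0
  have hcard : (Fintype.card ((Fin n → Fin J) × ↥(simplex v H)) : ℝ) = K * (simplex v H).card := by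
    rw [Fintype.card_prod, Fintype.card_coe, ← hcardK]
    push_cast
    rfl
  have hlo := card_simplex_lower hvpos hHpos
  have hhi := card_simplex_upper hvpos hHpos.le
  rw [Fintype.card_fin] at hlo hhi
  set M : ℝ := (Fintype.card ((Fin n → Fin J) × ↥(simplex v H)) : ℝ) with hM
  have hMlo : K * (H ^ (m + 1) / ((m + 1).factorial * ∏ i, v i)) ≤ M := by
    rw [hcard]
    gcongr
  have hMpos : 0 < M := lt_of_lt_of_le (by positivity) hMlo
  have hMhi : M ≤ K / ((m + 1).factorial * ∏ i, v i) * (H + ∑ i, v i) ^ (m + 1) := by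
    rw [hcard]
    calc (K : ℝ) * (simplex v H).card
        ≤ K * ((H + ∑ i, v i) ^ (m + 1) / ((m + 1).factorial * ∏ i, v i)) := by gcongr
      _ = _ := by ring
  have : Nonempty ((Fin n → Fin J) × ↥(simplex v H)) := by
    rw [← Fintype.card_pos_iff]
    rw [hM] at hMpos
    exact_mod_cast hMpos
  have hMlo' : η * K * θ ^ m / v0 * H ^ (m + 1) / ((m + 1).factorial * Wq) ≤ η * M := by
    calc _ = η * (K * (H ^ (m + 1) / ((m + 1).factorial * ∏ i, v i))) := by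
          rw [hPv]
          field_simp
      _ ≤ η * M := by gcongr
  set Nr : ℝ := (ν * A * H + (1 + ∑ k, ν * wq k)) ^ (m + 1) /
    ((m + 1).factorial * (1 * ∏ k, ν * wq k)) with hNr
  have hNrM : Nr ≤ η * M := by
    have h1 : ν * A * H + (1 + ∑ k, ν * wq k) =
        ν * A * (H + (1 + ∑ k, ν * wq k) / (ν * A)) := by
      field_simp
    have h2 : ∏ k, ν * wq k = ν ^ m * Wq := by
      rw [Finset.prod_mul_distrib, Finset.prod_const, Finset.card_univ, Fintype.card_fin]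
    have h3 := hH2 H hHH2
    calc Nr = ν * A ^ (m + 1) * v0 * (H + (1 + ∑ k, ν * wq k) / (ν * A)) ^ (m + 1) /
          ((m + 1).factorial * (v0 * Wq)) := by
          rw [hNr, h1, h2, mul_pow, mul_pow, pow_succ ν]
          field_simp
      _ ≤ η * K * θ ^ m * H ^ (m + 1) / ((m + 1).factorial * (v0 * Wq)) := by gcongr
      _ = η * K * θ ^ m / v0 * H ^ (m + 1) / ((m + 1).factorial * Wq) := by field_simp
      _ ≤ η * M := hMlo'
  have hNr0 : 0 ≤ Nr := by
    have : 0 ≤ ∑ k, ν * wq k := Finset.sum_nonneg fun k _ => (mul_pos hν0 (hwq0 k)).le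
    have : 0 < ∏ k, ν * wq k := Finset.prod_pos fun k _ => mul_pos hν0 (hwq0 k)
    positivity
  have hcount : ∀ D : ℝ, 0 < D → ∀ G : Finset (Fin m → ℕ), (∀ d ∈ G, ∑ k, wq k * d k < D * H) →
      G.card ≤ ⌊(D * H + Sq) ^ m / (m.factorial * Wq)⌋₊ := fun D hD G hG => by
    have := An.card_le_simplex wq hwq0 (D * H) (by positivity) G fun d hd => (hG d hd).le
    rw [Fintype.card_fin] at this
    exact Nat.le_floor this
  simp only [coeff_ph_monomial] at hdet
  have hineq := minor_ineq O hO (fun ρ : (Fin n → Fin J) × ↥(simplex v H) => ρ.1) ζ B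
    (pow_ne_zero _ hb0) hBY P
    (fun a k => O.sum_mem fun u _ => O.mul_mem (natCast_mem O _) ((hx k).2.2.1 u))
    (fun k => (x k).1) (fun k => (hx k).1) (fun k => (hx k).2.1) T wq (fun k => rfl) S₁ S₂ hS₁ hS₂
    hdis μ hμ (fun l hl k => (hx k).2.2.2.2.1 l hl)
    (fun l hl k => by
      obtain ⟨a, ha, ha'⟩ := (hx k).2.2.2.2.2 l hl
      choose u hu hu' using ha'
      refine ⟨a, ha, fun e => ⟨∑ t, ((e t : ℕ) : ℂ) * u t,
        O.sum_mem fun t _ => O.mul_mem (natCast_mem O _) (hu t), ?_⟩⟩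
      simp only [hP]
      rw [Finset.mul_sum]
      exact Finset.sum_congr rfl fun t _ => by rw [hu' t]; ring)
    (fun l hl a => by
      simp only [hζ]
      rw [Complex.exp_sum]
      exact Finset.prod_eq_one fun k _ => by rw [Complex.exp_nat_mul, hnum l hl k, one_pow])
    ν θ η φ lam v0 w0 r0 H (ν * A * H) (B₁ * H) (A * H) ⌊Nr⌋₊ _ _ hν0.le (by linarith) hθ hη
    hv00 hw00 (by positivity) (by positivity) (by positivity) hζr hr01 hR hBw
    (by rw [hφdef]; linarith) hlamv hlam1 hT2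
    (fun k => le_of_div hη (by linarith) (hqC k))
    (fun k => le_of_div hη (by linarith) (hqC k))
    (fun a k t ht => close_leaf _ _ _ (n * J) _ ν ν₁ lam (by positivity) hlam1 (hPζ a k)
      (by
        have h1 := mul_le_mul_of_nonneg_right hlamφ (hwq0 k).le
        have h2 := mul_le_mul_of_nonneg_left (hT1 k) (show 0 ≤ lam by linarith)
        linarith)
      (le_of_div hνν (by linarith) (hqC k)) t ht)
    (fun ρ => ρ.2.1 0) (fun c => col c 0) (fun c k => col c k.succ) (fun ρ k => ρ.2.1 k.succ)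
    (fun ρ => by
      have h1 := lt_of_mem_simplex ρ.2.2
      rw [wt, Fin.sum_univ_succ] at h1
      exact h1.le)
    (fun c => by
      have h1 := hcol c
      rw [wt, Fin.sum_univ_succ] at h1
      exact h1)
    (fun F hF => Nat.le_floor (An.card_le_simplex_prod (fun k => ν * wq k)
        (fun k => mul_pos hν0 (hwq0 k)) 1 one_pos _ (by positivity) F fun a ha => (hF a ha).le))
    (hcount B₁ hB₁) (hcount A hA) hdet
  have hlog := hH1 H hHH1 M hMpos hMhi
  have hN : (⌊Nr⌋₊ : ℝ) ≤ η * M := (Nat.floor_le hNr0).trans hNrM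
  have hN1 : ((Fintype.card (Fin n → Fin J) * (⌊H / w0⌋₊ + 1) *
      ⌊(B₁ * H + Sq) ^ m / (m.factorial * Wq)⌋₊ : ℕ) : ℝ) ≤ η * M := by
    rw [mul_assoc, Nat.cast_mul, hcardK]
    refine (mul_le_mul_of_nonneg_left (hH3 H hHH3) (by linarith)).trans (le_trans (le_of_eq ?_) hMlo')
    ring
  have hN2 := (hH4 H hHH4).trans hMlo'
  rw [← hM, ← hμ₁, ← hμ₂] at hineq
  refine final_ineq (X := (ν + μ₂) * A + μ₁ * B₁) (Y := (ν + μ₂ + μ₁ - 1) * θ) hMpos hHpos hη
    hmain (le_trans ?_ hineq) ?_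
  · have e1 : ν * A * H * (M - η * M) ≤ ν * A * H * (M - ⌊Nr⌋₊) := by gcongr
    have e2 := mul_le_mul_of_nonneg_left (mul_le_mul_of_nonneg_left (sub_le_sub_left hN1 M)
      (show 0 ≤ B₁ * H by positivity)) hμ₁0
    have e3 := mul_le_mul_of_nonneg_left (mul_le_mul_of_nonneg_left (sub_le_sub_left hN2 M)
      (show 0 ≤ A * H by positivity)) hμ₂0
    linarith
  · refine mul_le_mul_of_nonneg_left ?_ hMpos.le
    rw [show ν + (μ₁ + μ₂) - 1 = ν + μ₂ + μ₁ - 1 by ring]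
    linarith

end Vale.Agent.N021
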