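import Vale.Agent.N021.Fin

namespace Vale.Agent.N021

open Vale.Agent.P021

theorem isLUB_of_mu {x : ℝ} (h : irrationalityExponent x = 2) : IsLUB (approxExponents x) 2 := by
  have h2 : ((2 : ℝ) : EReal) = 2 := rfl
  constructor
  · intro ν hν
    have : (ν : EReal) ≤ irrationalityExponent x := le_iSup₂_of_le ν hν le_rfl
    rw [h, ← h2] at this
    exact_mod_cast this
  · intro b hb
    have : irrationalityExponent x ≤ (b : EReal) :=
      iSup₂_le fun ν hν => by exact_mod_cast hb hν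
    rw [h, ← h2] at this
    exact_mod_cast this

theorem pi_data : InQuad 1 (2 * Complex.I) ∧ Complex.exp (2 * Complex.I * (Real.pi : ℝ)) = 1 ∧
    2 * Complex.I * ((Real.pi : ℝ) : ℂ) ≠ 0 := by
  have h : 2 * Complex.I * ((Real.pi : ℝ) : ℂ) = 2 * Real.pi * Complex.I := by ring
  refine ⟨⟨0, 2, by simp⟩, ?_, ?_⟩
  · rw [h, Complex.exp_two_pi_mul_I]
  · rw [h]
    exact Complex.two_pi_I_ne_zero

theorem pi_sys : LogSystem (fun _ : Fin 1 => Real.pi) :=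
  logSystem_single _ 1 _ pi_data.1 (pi_data.2.1 ▸ inQuad_one 1) pi_data.2.2

theorem simul_pi_log {n : ℕ} (a : Fin n → ℚ) (ha : ∀ k, 0 < a k)
    (hind : ∀ e : Fin n → ℤ, ∏ k, a k ^ e k = 1 → e = 0) (S : Finset ℕ) (hS : ∀ l ∈ S, l.Prime)
    {ε : ℝ} (hε : 0 < ε) : ∃ c : ℝ, 0 < c ∧ ∀ (q : ℕ) (p₀ : ℤ) (p : Fin n → ℤ) (δ : ℝ), 0 < q →
      |q * Real.pi - p₀| ≤ δ → (∀ k, |q * Real.log (a k) - p k| ≤ δ) →
      c ≤ (q : ℝ) ^ (1 + ε) * (∏ l ∈ S, ((padicNorm l q : ℚ) : ℝ)) * δ ^ (n + 1) := by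
  obtain ⟨c, hc, h⟩ := simul (Nat.succ_pos n) (sys_pi_log a ha hind) S hS hε
  refine ⟨c, hc, fun q p₀ p δ hq h0 h1 => ?_⟩
  obtain ⟨k, hk⟩ := h q (Fin.cons p₀ p) hq
  have h2 : |q * (Fin.cons Real.pi (fun k => Real.log (a k)) : Fin (n + 1) → ℝ) k -
      ((Fin.cons p₀ p : Fin (n + 1) → ℤ) k : ℝ)| ≤ δ := by
    refine Fin.cases ?_ (fun k => ?_) k
    · simpa using h0
    · simpa using h1 k
  have h3 : absS S q = ∏ l ∈ S, ((padicNorm l q : ℚ) : ℝ) := by simp [absS]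
  rw [h3] at hk
  refine hk.trans (mul_le_mul_of_nonneg_left (pow_le_pow_left₀ (abs_nonneg _) h2 _) ?_)
  exact mul_nonneg (by positivity) (Finset.prod_nonneg fun l _ => by
    exact_mod_cast padicNorm.nonneg _)

theorem linform_pi_log {n : ℕ} (a : Fin n → ℚ) (ha : ∀ k, 0 < a k)
    (hind : ∀ e : Fin n → ℤ, ∏ k, a k ^ e k = 1 → e = 0) {ε : ℝ} (hε : 0 < ε) :
    ∃ c : ℝ, 0 < c ∧ ∀ (x y : ℤ) (z : Fin n → ℤ) (H : ℝ), (y ≠ 0 ∨ z ≠ 0) →
      |(y : ℝ)| ≤ H → (∀ k, |(z k : ℝ)| ≤ H) →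
      c ≤ H ^ (n + 1 + ε) * |x + y * Real.pi + ∑ k, z k * Real.log (a k)| := by
  obtain ⟨c, hc, h⟩ := linform (Nat.succ_pos n) (sys_pi_log a ha hind) hε
  refine ⟨c, hc, fun x y z H hne h0 h1 => ?_⟩
  have hne' : (Fin.cons y z : Fin (n + 1) → ℤ) ≠ 0 := by
    intro h
    rcases hne with h' | h'
    · exact h' (by simpa using congrFun h 0)
    · exact h' (funext fun k => by simpa using congrFun h k.succ)
  have h2 := h x _ hne'
  have h3 : ‖(Fin.cons y z : Fin (n + 1) → ℤ)‖ ≤ H := by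
    refine (pi_norm_le_iff_of_nonneg ((abs_nonneg _).trans h0)).2 fun k => ?_
    refine Fin.cases ?_ (fun k => ?_) k
    · simpa [Int.norm_eq_abs] using h0
    · simpa [Int.norm_eq_abs] using h1 k
  rw [Fin.sum_univ_succ] at h2
  simp only [Fin.cons_zero, Fin.cons_succ, ← add_assoc] at h2
  refine h2.trans (mul_le_mul_of_nonneg_right ?_ (abs_nonneg _))
  push_cast
  exact Real.rpow_le_rpow (norm_nonneg _) h3 (by positivity)

end Vale.Agent.N021
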