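import Vale.Agent.N021.Main
import Vale.Agent.N021.Defs

/-! Rational approximations to real numbers. -/

namespace Vale.Agent.N021

open Vale.Agent.P021Z

/-- The ring `ℤ[√(-d)]`. -/
def Od (d : ℕ) : Subring ℂ where
  carrier := {z | ∃ a b : ℤ, z = (a : ℂ) + (b : ℂ) * ((Real.sqrt d : ℝ) * Complex.I)}
  mul_mem' := by
    rintro _ _ ⟨a, b, rfl⟩ ⟨a', b', rfl⟩
    refine ⟨a * a' - d * b * b', a * b' + a' * b, ?_⟩
    have h1 : ((Real.sqrt d : ℝ) : ℂ) ^ 2 = d := by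
      rw [← Complex.ofReal_pow, Real.sq_sqrt (Nat.cast_nonneg d)]
      simp
    push_cast
    linear_combination (b * b' * Complex.I ^ 2) * h1 + (b * b' * d) * Complex.I_sq
  one_mem' := ⟨1, 0, by simp⟩
  add_mem' := by
    rintro _ _ ⟨a, b, rfl⟩ ⟨a', b', rfl⟩
    exact ⟨a + a', b + b', by push_cast; ring⟩
  zero_mem' := ⟨0, 0, by simp⟩
  neg_mem' := by
    rintro _ ⟨a, b, rfl⟩
    exact ⟨-a, -b, by push_cast; ring⟩

theorem Od_norm (d : ℕ) : ∀ z ∈ Od d, z ≠ 0 → 1 ≤ ‖z‖ := by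
  rintro z ⟨a, b, rfl⟩ hz
  have h1 : ‖(a : ℂ) + (b : ℂ) * ((Real.sqrt d : ℝ) * Complex.I)‖ ^ 2 =
      ((a ^ 2 + d * b ^ 2 : ℤ) : ℝ) := by
    rw [← Complex.normSq_eq_norm_sq, Complex.normSq_apply]
    have h2 := Real.sq_sqrt (Nat.cast_nonneg d : (0 : ℝ) ≤ d)
    simp
    linear_combination (b : ℝ) ^ 2 * h2
  have h3 : 0 < ‖(a : ℂ) + (b : ℂ) * ((Real.sqrt d : ℝ) * Complex.I)‖ ^ 2 :=
    pow_pos (norm_pos_iff.2 hz) 2
  rw [h1] at h3
  have h4 : (1 : ℤ) ≤ a ^ 2 + d * b ^ 2 := by exact_mod_cast h3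
  have h5 : (1 : ℝ) ≤ ‖(a : ℂ) + (b : ℂ) * ((Real.sqrt d : ℝ) * Complex.I)‖ ^ 2 := by
    rw [h1]
    exact_mod_cast h4
  nlinarith [norm_nonneg ((a : ℂ) + (b : ℂ) * ((Real.sqrt d : ℝ) * Complex.I))]

theorem exists_den {d : ℕ} {z : ℂ} (h : InQuad d z) : ∃ N : ℕ, 0 < N ∧ (N : ℂ) * z ∈ Od d := by
  obtain ⟨a, b, rfl⟩ := h
  refine ⟨a.den * b.den, Nat.mul_pos a.den_pos b.den_pos, a.num * b.den, b.num * a.den, ?_⟩
  have h1 : (a.den : ℂ) * a = a.num := by exact_mod_cast Rat.den_mul_eq_num a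
  have h2 : (b.den : ℂ) * b = b.num := by exact_mod_cast Rat.den_mul_eq_num b
  push_cast
  rw [← h1, ← h2]
  ring

theorem exists_den' {d n : ℕ} {z : Fin n → ℂ} (h : ∀ k, InQuad d (z k)) :
    ∃ N : ℕ, 0 < N ∧ ∀ k, (N : ℂ) * z k ∈ Od d := by
  classical
  choose N hN hN' using fun k => exists_den (h k)
  refine ⟨∏ k, N k, Finset.prod_pos fun k _ => hN k, fun k => ?_⟩
  rw [← Finset.mul_prod_erase _ _ (Finset.mem_univ k), mul_comm (N k), Nat.cast_mul, mul_assoc]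
  exact (Od d).mul_mem (natCast_mem _ _) (hN' k)

/-- The main contradiction for rational approximations. -/
theorem core_real {n : ℕ} (hn : 0 < n) (θ : Fin n → ℝ) (d : ℕ) (β : Fin n → ℂ)
    (hβ : ∀ k, InQuad d (β k) ∧ InQuad d (Complex.exp (β k * θ k)))
    (hli : LinearIndependent ℚ (fun k => β k * (θ k : ℂ))) (S : Finset ℕ)
    (hS : ∀ l ∈ S, l.Prime) (μ₁ μ₂ : ℕ → ℝ) (h₁ : ∀ l, 0 ≤ μ₁ l) (h₂ : ∀ l, 0 ≤ μ₂ l)
    (h12 : ∀ l ∈ S, μ₁ l = 0 ∨ μ₂ l = 0)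
    (hnum : ∀ l ∈ S, μ₂ l = 0 ∨ ∀ k, Complex.exp (β k * θ k) = 1) (ν : ℝ) (hν : 0 < ν)
    (hgap : (n : ℝ) + 1 < n * (ν + ∑ l ∈ S, μ₂ l) + ∑ l ∈ S, μ₁ l)
    (happ : ∀ C : ℝ, ∃ (q : ℕ) (p : Fin n → ℤ), C ≤ Real.log q ∧ 0 < q ∧
      (∀ k, |θ k - p k / q| ≤ Real.exp (-(ν * Real.log q))) ∧
      (∀ l ∈ S, ∃ a : ℕ, μ₁ l * Real.log q ≤ a * Real.log l ∧ l ^ a ∣ q) ∧
      (∀ l ∈ S, ∃ a : ℕ, μ₂ l * Real.log q ≤ a * Real.log l ∧ ∀ k, (l : ℤ) ^ a ∣ p k)) :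
    False := by
  classical
  obtain ⟨b, hb, hb'⟩ := exists_den' fun k => (hβ k).2
  obtain ⟨N, hN, hN'⟩ := exists_den' fun k => (hβ k).1
  have hn1 : (1 : ℝ) ≤ n := by exact_mod_cast hn
  set s : ℝ := (S.card : ℝ) with hs
  have hs0 : 0 ≤ s := Nat.cast_nonneg _
  set g := n * (ν + ∑ l ∈ S, μ₂ l) + ∑ l ∈ S, μ₁ l - (n + 1) with hg
  have hg0 : 0 < g := by linarith
  set τ := min (ν / 2) (g / (2 * (n * (1 + s) + s))) with hτ
  have hden : 0 < 2 * (n * (1 + s) + s) := by positivity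
  have hτ0 : 0 < τ := lt_min (by positivity) (by positivity)
  have hτ1 : τ ≤ ν / 2 := min_le_left _ _
  have hτ2 : τ * (2 * (n * (1 + s) + s)) ≤ g := by
    rw [← le_div_iff₀ hden]
    exact min_le_right _ _
  set S₂ := S.filter (fun l => μ₂ l ≠ 0) with hS₂
  set S₁ := S.filter (fun l => ¬ μ₂ l ≠ 0) with hS₁
  set μ : ℕ → ℝ := fun l => max (μ₁ l + μ₂ l - τ) 0 with hμ
  have e1 : ∑ l ∈ S, μ₁ l - s * τ ≤ ∑ l ∈ S₁, μ l := by
    have h1 : ∑ l ∈ S₁, μ₁ l = ∑ l ∈ S, μ₁ l := Finset.sum_filter_of_ne fun l hl h0 h1 =>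
      (h12 l hl).elim h0 h1
    have h2 : ∑ l ∈ S₁, (μ₁ l - τ) ≤ ∑ l ∈ S₁, μ l := Finset.sum_le_sum fun l _ =>
      le_trans (by linarith [h₂ l]) (le_max_left _ _)
    rw [Finset.sum_sub_distrib, h1, Finset.sum_const, nsmul_eq_mul] at h2
    have h3 : (S₁.card : ℝ) ≤ s := Nat.cast_le.2 (Finset.card_filter_le _ _)
    nlinarith
  have e2 : ∑ l ∈ S, μ₂ l - s * τ ≤ ∑ l ∈ S₂, μ l := by
    have h1 : ∑ l ∈ S₂, μ₂ l = ∑ l ∈ S, μ₂ l := Finset.sum_filter_of_ne fun l _ h0 => h0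
    have h2 : ∑ l ∈ S₂, (μ₂ l - τ) ≤ ∑ l ∈ S₂, μ l := Finset.sum_le_sum fun l _ =>
      le_trans (by linarith [h₁ l]) (le_max_left _ _)
    rw [Finset.sum_sub_distrib, h1, Finset.sum_const, nsmul_eq_mul] at h2
    have h3 : (S₂.card : ℝ) ≤ s := Nat.cast_le.2 (Finset.card_filter_le _ _)
    nlinarith
  refine core hn (Od d) (Od_norm d) (fun k => β k * θ k) hli b (natCast_mem _ _)
    (by exact_mod_cast hb.ne') hb' S₁ S₂ (fun l hl => hS l (Finset.mem_filter.1 hl).1)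
    (fun l hl => hS l (Finset.mem_filter.1 hl).1) (Finset.disjoint_filter_filter_not S S _).symm
    μ (fun l => le_max_right _ _)
    (fun l hl => (hnum l (Finset.mem_filter.1 hl).1).resolve_left (Finset.mem_filter.1 hl).2)
    (ν - τ) (by linarith) (by nlinarith) fun C => ?_
  set lN := Real.log N with hlN
  have hlN0 : 0 ≤ lN := Real.log_natCast_nonneg N
  set Bβ := ∑ k, ‖β k‖ with hBβ
  have hBβ0 : 0 ≤ Bβ := Finset.sum_nonneg fun _ _ => norm_nonneg _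
  set Mμ := ∑ l ∈ S, (μ₁ l + μ₂ l) with hMμ
  have hMμ0 : 0 ≤ Mμ := Finset.sum_nonneg fun l _ => add_nonneg (h₁ l) (h₂ l)
  set D := Bβ + (ν + Mμ) * lN with hD
  obtain ⟨q, p, hC, hq, ha, hd₁, hd₂⟩ := happ (max C (D / τ))
  have hq0 : (0 : ℝ) < q := by exact_mod_cast hq
  have hN0 : (0 : ℝ) < N := by exact_mod_cast hN
  have hqc : (q : ℂ) ≠ 0 := by exact_mod_cast hq.ne'
  have hNc : (N : ℂ) ≠ 0 := by exact_mod_cast hN.ne'
  have hlog : Real.log ‖(N : ℂ) * q‖ = lN + Real.log q := by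
    rw [norm_mul, Complex.norm_natCast, Complex.norm_natCast, Real.log_mul hN0.ne' hq0.ne']
  have hlq : 0 ≤ Real.log q := Real.log_natCast_nonneg q
  have hDτ : D ≤ τ * Real.log q := by
    have := (le_max_right _ _).trans hC
    rw [div_le_iff₀ hτ0] at this
    linarith
  have hμl : ∀ l ∈ S, ∀ (a : ℕ), (μ₁ l + μ₂ l) * Real.log q ≤ a * Real.log l →
      μ l * (lN + Real.log q) ≤ a * Real.log l := by
    intro l hl a h
    have h1 : μ₁ l + μ₂ l ≤ Mμ := Finset.single_le_sum (f := fun l => μ₁ l + μ₂ l)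
      (fun l _ => add_nonneg (h₁ l) (h₂ l)) hl
    simp only [hμ]
    rcases max_choice (μ₁ l + μ₂ l - τ) 0 with h2 | h2
    · rw [h2]
      have h3 := mul_le_mul_of_nonneg_right h1 hlN0
      have h4 : 0 ≤ ν * lN := by positivity
      have h5 : 0 ≤ τ * lN := by positivity
      nlinarith
    · rw [h2, zero_mul]
      exact mul_nonneg (Nat.cast_nonneg _) (Real.log_natCast_nonneg l)
  refine ⟨((N : ℂ) * q, fun k => (N * β k) * p k), ?_, ?_, mul_ne_zero hNc hqc, fun k => ?_,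
    fun k => ?_, fun l hl => ?_, fun l hl => ?_⟩
  · simp only [hlog]
    linarith [(le_max_left _ _).trans hC]
  · exact (Od d).mul_mem (natCast_mem _ _) (natCast_mem _ _)
  · exact (Od d).mul_mem (hN' k) (intCast_mem _ _)
  · simp only [hlog]
    have e : β k * θ k - N * β k * p k / (N * q) = β k * ((θ k - p k / q : ℝ) : ℂ) := by
      push_cast
      field_simp
    rw [e, norm_mul, Complex.norm_real, Real.norm_eq_abs]
    have h1 : ‖β k‖ ≤ Real.exp Bβ := by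
      have : ‖β k‖ ≤ Bβ := Finset.single_le_sum (f := fun k => ‖β k‖) (fun _ _ => norm_nonneg _)
        (Finset.mem_univ k)
      linarith [Real.add_one_le_exp Bβ]
    refine (mul_le_mul h1 (ha k) (abs_nonneg _) (Real.exp_pos _).le).trans ?_
    rw [← Real.exp_add]
    refine Real.exp_le_exp.2 ?_
    have h4 : 0 ≤ Mμ * lN := by positivity
    have h5 : 0 ≤ τ * lN := by positivity
    nlinarith
  · obtain ⟨hlS, h0⟩ := Finset.mem_filter.1 hl
    obtain ⟨a, h1, u, hu⟩ := hd₁ l hlS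
    refine ⟨a, ?_, N * u, (Od d).mul_mem (natCast_mem _ _) (natCast_mem _ _), ?_⟩
    · simp only [hlog]
      exact hμl l hlS a (by rw [not_not.1 h0, add_zero]; exact h1)
    · simp only [hu]
      push_cast
      ring
  · obtain ⟨hlS, h0⟩ := Finset.mem_filter.1 hl
    obtain ⟨a, h1, h2⟩ := hd₂ l hlS
    refine ⟨a, ?_, fun k => ?_⟩
    · simp only [hlog]
      exact hμl l hlS a (by rw [(h12 l hlS).resolve_right h0, zero_add]; exact h1)
    · obtain ⟨u, hu⟩ := h2 k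
      refine ⟨N * β k * u, (Od d).mul_mem (hN' k) (intCast_mem _ _), ?_⟩
      simp only [hu]
      push_cast
      ring

/-- Pigeonhole for finitely many bounded exponents. -/
theorem pigeon {X : Type} (S : Finset ℕ) (s : X → ℝ) (Q : X → Prop) (f : ℕ → X → ℝ)
    (hf : ∀ x, Q x → ∀ i ∈ S, 0 ≤ f i x ∧ f i x ≤ 2) (h : ∀ C, ∃ x, C ≤ s x ∧ Q x) (δ : ℝ)
    (hδ : 0 < δ) : ∃ μ : ℕ → ℝ, (∀ i, 0 ≤ μ i) ∧
      ∀ C, ∃ x, C ≤ s x ∧ (Q x ∧ ∀ i ∈ S, μ i ≤ f i x ∧ f i x ≤ μ i + δ) := by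
  classical
  by_contra hcon
  push Not at hcon
  set N := ⌊2 / δ⌋₊ + 1 with hN
  let mu : (S → Fin N) → ℕ → ℝ := fun g i => if h : i ∈ S then (g ⟨i, h⟩ : ℕ) * δ else 0
  have hmu : ∀ g i, 0 ≤ mu g i := fun g i => by
    simp only [mu]
    split_ifs
    · positivity
    · exact le_rfl
  choose C hC using fun g => hcon (mu g) (hmu g)
  obtain ⟨C0, hC0⟩ := Finite.exists_le C
  obtain ⟨x, hx, hQ⟩ := h C0
  let g : S → Fin N := fun i => ⟨⌊f i x / δ⌋₊, Nat.lt_succ_of_le (Nat.floor_le_floor (by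
    have := (hf x hQ i i.2).2
    gcongr))⟩
  obtain ⟨i, hi, h1⟩ := hC g x ((hC0 g).trans hx) hQ
  have h2 : mu g i = ⌊f i x / δ⌋₊ * δ := by simp [mu, hi, g]
  have h3 := Nat.floor_le (div_nonneg (hf x hQ i hi).1 hδ.le)
  have h4 := Nat.lt_floor_add_one (f i x / δ)
  rw [le_div_iff₀ hδ] at h3
  rw [div_lt_iff₀ hδ] at h4
  rw [h2] at h1
  linarith [h1 h3]

/-- The logarithm of the `S`-part. -/
noncomputable def lS (S : Finset ℕ) (N : ℕ) : ℝ := ∑ l ∈ S, padicValNat l N * Real.log l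

theorem lS_le (S : Finset ℕ) (hS : ∀ l ∈ S, l.Prime) {N : ℕ} (hN : 0 < N) :
    lS S N ≤ Real.log N := by
  have h1 : ∏ l ∈ S, l ^ padicValNat l N ∣ N :=
    Finset.prod_dvd_of_isRelPrime (fun a ha b hb hab => Nat.coprime_iff_isRelPrime.1
      (Nat.Coprime.pow _ _ ((Nat.coprime_primes (hS a ha) (hS b hb)).2 hab)))
      fun l _ => pow_padicValNat_dvd
  have h2 : ((∏ l ∈ S, l ^ padicValNat l N : ℕ) : ℝ) ≤ N := by exact_mod_cast Nat.le_of_dvd hN h1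
  have h3 : ∀ l ∈ S, (0 : ℝ) < (l : ℝ) ^ padicValNat l N := fun l hl => by
    have : (0 : ℝ) < l := by exact_mod_cast (hS l hl).pos
    positivity
  push_cast at h2
  refine le_trans (le_of_eq ?_) (Real.log_le_log (Finset.prod_pos h3) h2)
  rw [Real.log_prod fun l hl => (h3 l hl).ne', lS]
  exact Finset.sum_congr rfl fun l _ => (Real.log_pow _ _).symm

theorem absS_eq (S : Finset ℕ) (hS : ∀ l ∈ S, l.Prime) {z : ℤ} (hz : z ≠ 0) :
    absS S z = Real.exp (-lS S z.natAbs) := by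
  rw [absS, lS, ← Finset.sum_neg_distrib, Real.exp_sum]
  refine Finset.prod_congr rfl fun l hl => ?_
  have hl0 : (0 : ℝ) < l := by exact_mod_cast (hS l hl).pos
  rw [padicNorm.eq_zpow_of_nonzero (by exact_mod_cast hz), padicValRat.of_int, padicValInt,
    Real.exp_neg, Real.exp_nat_mul, Real.exp_log hl0, zpow_neg, zpow_natCast]
  push_cast
  rfl

theorem term_le (S : Finset ℕ) {l : ℕ} (hl : l ∈ S) (N : ℕ) :
    0 ≤ padicValNat l N * Real.log l ∧ padicValNat l N * Real.log l ≤ lS S N :=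
  ⟨mul_nonneg (Nat.cast_nonneg _) (Real.log_natCast_nonneg l),
    Finset.single_le_sum (f := fun l : ℕ => padicValNat l N * Real.log l)
      (fun l _ => mul_nonneg (Nat.cast_nonneg _) (Real.log_natCast_nonneg l)) hl⟩

theorem lS_le_of (S : Finset ℕ) (N : ℕ) (μ : ℕ → ℝ) (δ L : ℝ) (hL : 0 < L)
    (h : ∀ l ∈ S, μ l ≤ padicValNat l N * Real.log l / L ∧
      padicValNat l N * Real.log l / L ≤ μ l + δ) :
    (∑ l ∈ S, μ l) * L ≤ lS S N ∧ lS S N ≤ (∑ l ∈ S, μ l + S.card * δ) * L := by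
  constructor
  · rw [Finset.sum_mul]
    exact Finset.sum_le_sum fun l hl => (le_div_iff₀ hL).1 (h l hl).1
  · have : ∑ l ∈ S, μ l + S.card * δ = ∑ l ∈ S, (μ l + δ) := by
      rw [Finset.sum_add_distrib, Finset.sum_const, nsmul_eq_mul]
    rw [this, Finset.sum_mul]
    exact Finset.sum_le_sum fun l hl => (div_le_iff₀ hL).1 (h l hl).2

/-- Simultaneous approximation, for large denominators. -/
theorem simul_large {n : ℕ} (hn : 0 < n) {θ : Fin n → ℝ} (hθ : LogSystem θ) (S : Finset ℕ)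
    (hS : ∀ l ∈ S, l.Prime) {ε : ℝ} (hε : 0 < ε) :
    ∃ C : ℝ, ∀ (q : ℕ) (p : Fin n → ℤ), C ≤ Real.log q → 0 < q →
      ∃ k, 1 ≤ (q : ℝ) ^ (1 + ε) * absS S q * |q * θ k - p k| ^ n := by
  by_contra hcon
  push Not at hcon
  obtain ⟨d, β, hβ, hli⟩ := hθ
  have hn1 : (1 : ℝ) ≤ n := by exact_mod_cast hn
  set s : ℝ := (S.card : ℝ) with hs
  have hs0 : 0 ≤ s := Nat.cast_nonneg _
  set δ := ε / (2 * (s + 1)) with hδ
  have hδ0 : 0 < δ := by positivity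
  have hsδ : s * δ ≤ ε / 2 := by
    rw [hδ, mul_div_assoc', div_le_div_iff₀ (by positivity) (by norm_num)]
    nlinarith
  obtain ⟨μ, hμ, hx⟩ := pigeon (X := ℕ × (Fin n → ℤ)) S (fun x => Real.log x.1)
    (fun x => 1 ≤ Real.log x.1 ∧ 0 < x.1 ∧
      ∀ k, (x.1 : ℝ) ^ (1 + ε) * absS S x.1 * |x.1 * θ k - x.2 k| ^ n < 1)
    (fun l x => padicValNat l x.1 * Real.log l / Real.log x.1)
    (fun x hx l hl => by
      have h1 := term_le S hl x.1
      have h2 := lS_le S hS hx.2.1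
      refine ⟨div_nonneg h1.1 (by linarith [hx.1]), ?_⟩
      rw [div_le_iff₀ (by linarith [hx.1])]
      linarith [hx.1])
    (fun C => by
      obtain ⟨q, p, h1, h2, h3⟩ := hcon (max C 1)
      exact ⟨(q, p), (le_max_left _ _).trans h1, (le_max_right _ _).trans h1, h2, h3⟩) δ hδ0
  have hμ1 : ∑ l ∈ S, μ l ≤ 1 := by
    obtain ⟨x, -, ⟨h1, h2, -⟩, h3⟩ := hx 0
    have h4 := (lS_le_of S x.1 μ δ _ (by linarith) h3).1.trans (lS_le S hS h2)
    nlinarith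
  set ν := (n + 1 + ε - (∑ l ∈ S, μ l + s * δ)) / n with hν
  have hnν : n * ν = n + 1 + ε - (∑ l ∈ S, μ l + s * δ) := by rw [hν]; field_simp
  refine core_real hn θ d β hβ hli S hS μ (fun _ => 0) hμ (fun _ => le_rfl)
    (fun _ _ => Or.inr rfl) (fun _ _ => Or.inl rfl) ν (by nlinarith)
    (by simp only [Finset.sum_const_zero, add_zero]; linarith) fun C => ?_
  obtain ⟨⟨q, p⟩, h0, ⟨h1, h2, h3⟩, h4⟩ := hx C
  simp only at h0 h1 h2 h3 h4
  have hq0 : (0 : ℝ) < q := by exact_mod_cast h2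
  have h5 := (lS_le_of S q μ δ _ (by linarith) h4).2
  refine ⟨q, p, h0, h2, fun k => ?_, fun l hl => ⟨padicValNat l q,
    (le_div_iff₀ (by linarith)).1 (h4 l hl).1, pow_padicValNat_dvd⟩,
    fun l _ => ⟨0, by simp, fun k => by simp⟩⟩
  refine le_of_not_gt fun hlt => absurd (h3 k) (not_lt.2 ?_)
  have e1 : |q * θ k - p k| = q * |θ k - p k / q| := by
    rw [← abs_of_pos hq0, ← abs_mul, abs_of_pos hq0]
    congr 1
    field_simp
  rw [e1, absS_eq S hS (by exact_mod_cast h2.ne'), Int.natAbs_natCast, Real.rpow_def_of_pos hq0]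
  calc (1 : ℝ) ≤ Real.exp (Real.log q * (1 + ε)) * Real.exp (-lS S q) *
        (Real.exp (Real.log q) * Real.exp (-(ν * Real.log q))) ^ n := by
        rw [← Real.exp_add, ← Real.exp_add, ← Real.exp_nat_mul, ← Real.exp_add,
          Real.one_le_exp_iff]
        have : (n : ℝ) * (Real.log q + -(ν * Real.log q)) =
            n * Real.log q - (n * ν) * Real.log q := by ring
        rw [this, hnν]
        nlinarith
    _ ≤ _ := by
        rw [Real.exp_log hq0]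
        gcongr

theorem absS_mul_le (S : Finset ℕ) (hS : ∀ l ∈ S, l.Prime) (a b : ℤ) :
    absS S (a * b) ≤ absS S b := by
  refine Finset.prod_le_prod (fun l _ => by exact_mod_cast padicNorm.nonneg _) fun l hl => ?_
  have := Fact.mk (hS l hl)
  rw [Int.cast_mul, padicNorm.mul]
  exact_mod_cast mul_le_of_le_one_left (padicNorm.nonneg _) (padicNorm.of_int a)

theorem absS_nonneg (S : Finset ℕ) (a : ℤ) : 0 ≤ absS S a :=
  Finset.prod_nonneg fun l _ => by exact_mod_cast padicNorm.nonneg _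

/-- Simultaneous approximation. -/
theorem simul {n : ℕ} (hn : 0 < n) {θ : Fin n → ℝ} (hθ : LogSystem θ) (S : Finset ℕ)
    (hS : ∀ l ∈ S, l.Prime) {ε : ℝ} (hε : 0 < ε) :
    ∃ c : ℝ, 0 < c ∧ ∀ (q : ℕ) (p : Fin n → ℤ), 0 < q →
      ∃ k, c ≤ (q : ℝ) ^ (1 + ε) * absS S q * |q * θ k - p k| ^ n := by
  obtain ⟨C, hC⟩ := simul_large hn hθ S hS hε
  set N := ⌈Real.exp C⌉₊ with hN
  have hN1 : Real.exp C ≤ N := Nat.le_ceil _
  have hN0 : (0 : ℝ) < N := (Real.exp_pos _).trans_le hN1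
  refine ⟨1 / ((N : ℝ) ^ (1 + ε) * N ^ n), by positivity, fun q p hq => ?_⟩
  have hq1 : (1 : ℝ) ≤ q := by exact_mod_cast hq
  obtain ⟨k, hk⟩ := hC (N * q) (fun k => N * p k) (by
    rw [Real.le_log_iff_exp_le (by push_cast; positivity)]
    push_cast
    nlinarith) (Nat.mul_pos (by exact_mod_cast hN0) hq)
  refine ⟨k, ?_⟩
  rw [div_le_iff₀ (by positivity)]
  refine hk.trans ?_
  push_cast
  rw [Real.mul_rpow hN0.le (by linarith), mul_assoc (N : ℝ) q, ← mul_sub, abs_mul,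
    abs_of_pos hN0, mul_pow]
  have h1 := absS_mul_le S hS N q
  calc (N : ℝ) ^ (1 + ε) * q ^ (1 + ε) * absS S (N * q) * (N ^ n * |q * θ k - p k| ^ n)
      ≤ (N : ℝ) ^ (1 + ε) * q ^ (1 + ε) * absS S q * (N ^ n * |q * θ k - p k| ^ n) := by gcongr
    _ = _ := by ring

end Vale.Agent.N021
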