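import Vale.Agent.P021Z.ZE
import Vale.Agent.P021Z.An.Jet

/-!
The zero estimate in interpolation form for arbitrary centres `(y, x_1, ..., x_m)` with `y ≠ 0`.
-/

open MvPolynomial Filter Topology
open Function (Injective Surjective onFun)

noncomputable section

namespace Vale.Agent.N021

open Vale.Agent.P021Z

variable {m : ℕ} {θ : ℝ} {w v : Fin (m + 1) → ℝ} {T : Fin m → ℕ}

/-- The translation to the point `c`. -/
def tr (c : Fin (m + 1) → ℂ) : R m →ₐ[ℂ] R m :=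
  aeval (Fin.cases (C (c 0) * X 0) fun i => X i.succ + C (c i.succ))

/-- The dummy centre. -/
abbrev one1 : Fin m → ℂ := fun _ => 1

/-- Local coordinates at the centre `c`. -/
def ph (T : Fin m → ℕ) (c : Fin (m + 1) → ℂ) : R m →ₐ[ℂ] R m := (phi one1 T 0).comp (tr c)

/-- Weighted order at least `b` at the centre `c`. -/
def Jc (v : Fin (m + 1) → ℝ) (T : Fin m → ℕ) (c : Fin (m + 1) → ℂ) (b : ℝ) : Ideal (R m) :=
  (W v b).comap (ph T c)

/-- Weighted order at least `b` at all the centres. -/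
def Ja {κ : Type} (v : Fin (m + 1) → ℝ) (T : Fin m → ℕ) (c : κ → Fin (m + 1) → ℂ) (b : ℝ) :
    Ideal (R m) := ⨅ j, Jc v T (c j) b

/-- The maximal ideal of a point. -/
def mx (c : Fin (m + 1) → ℂ) : Ideal (R m) := RingHom.ker (eval c)

theorem tr_X_zero (c : Fin (m + 1) → ℂ) : tr c (X 0) = C (c 0) * X 0 := by simp [tr]

theorem tr_X_succ (c : Fin (m + 1) → ℂ) (i : Fin m) :
    tr c (X i.succ) = X i.succ + C (c i.succ) := by simp [tr]

theorem tr_C (c : Fin (m + 1) → ℂ) (a : ℂ) : tr c (C a) = C a := (tr c).commutes a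

theorem ph_apply (c : Fin (m + 1) → ℂ) (f : R m) : ph T c f = phi one1 T 0 (tr c f) := rfl

theorem ph_C (c : Fin (m + 1) → ℂ) (a : ℂ) : ph T c (C a) = C a := (ph T c).commutes a

theorem ph_X_zero (c : Fin (m + 1) → ℂ) : ph T c (X 0) = C (c 0) * (1 + X 0) := by
  rw [ph_apply, tr_X_zero, map_mul, phi_C, phi_X_zero]

theorem ph_X_succ (c : Fin (m + 1) → ℂ) (i : Fin m) :
    ph T c (X i.succ) =
      C (c i.succ) + Polynomial.aeval (X 0 : R m) (logTrunc (T i)) + X i.succ := by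
  rw [ph_apply, tr_X_succ, map_add, phi_C, phi_X_succ]
  simp only [Nat.cast_zero, zero_mul, map_zero, zero_add]
  ring

theorem ph_t {c : Fin (m + 1) → ℂ} (hc : c 0 ≠ 0) : ph T c (C (c 0)⁻¹ * X 0 - 1) = X 0 := by
  rw [map_sub, map_mul, ph_C, ph_X_zero, map_one, ← mul_assoc, ← map_mul, inv_mul_cancel₀ hc,
    map_one]
  ring

theorem ph_u {c : Fin (m + 1) → ℂ} (hc : c 0 ≠ 0) (i : Fin m) :
    ph T c (X i.succ - C (c i.succ) -
      Polynomial.aeval (C (c 0)⁻¹ * X 0 - 1 : R m) (logTrunc (T i))) = X i.succ := by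
  rw [map_sub, map_sub, ph_X_succ, ph_C, ← Polynomial.aeval_algHom_apply, ph_t hc]
  ring

theorem ph_surjective {c : Fin (m + 1) → ℂ} (hc : c 0 ≠ 0) : Surjective (ph T c) := by
  intro g
  induction g using MvPolynomial.induction_on with
  | C a => exact ⟨C a, ph_C c a⟩
  | add p q hp hq =>
    obtain ⟨p', rfl⟩ := hp
    obtain ⟨q', rfl⟩ := hq
    exact ⟨p' + q', map_add _ _ _⟩
  | mul_X p i hp =>
    obtain ⟨p', rfl⟩ := hp
    refine Fin.cases ?_ (fun i => ?_) i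
    · exact ⟨p' * _, by rw [map_mul, ph_t hc]⟩
    · exact ⟨p' * _, by rw [map_mul, ph_u hc]⟩

theorem mem_Jc {c : Fin (m + 1) → ℂ} {b : ℝ} {f : R m} : f ∈ Jc v T c b ↔ ph T c f ∈ W v b :=
  Iff.rfl

theorem mem_Jc' {c : Fin (m + 1) → ℂ} {b : ℝ} {f : R m} :
    f ∈ Jc v T c b ↔ tr c f ∈ Ij v one1 T 0 b := Iff.rfl

theorem mem_Ja {κ : Type} {c : κ → Fin (m + 1) → ℂ} {b : ℝ} {f : R m} :
    f ∈ Ja v T c b ↔ ∀ j, f ∈ Jc v T (c j) b := by
  unfold Ja
  rw [Ideal.mem_iInf]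

theorem Jc_anti (c : Fin (m + 1) → ℂ) : Antitone (Jc v T c) := fun _ _ h _ hf => W_anti v h hf

theorem Ja_anti {κ : Type} {c : κ → Fin (m + 1) → ℂ} : Antitone (Ja v T c) := fun _ _ h _ hf =>
  mem_Ja.2 fun j => Jc_anti _ h (mem_Ja.1 hf j)

theorem mul_mem_Jc (hv : ∀ i, 0 ≤ v i) {c : Fin (m + 1) → ℂ} {b b' : ℝ} {f g : R m}
    (hf : f ∈ Jc v T c b) (hg : g ∈ Jc v T c b') : f * g ∈ Jc v T c (b + b') := by
  rw [mem_Jc, map_mul]
  exact mul_mem_W hv hf hg

theorem mul_mem_Ja {κ : Type} (hv : ∀ i, 0 ≤ v i) {c : κ → Fin (m + 1) → ℂ} {b b' : ℝ}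
    {f g : R m} (hf : f ∈ Ja v T c b) (hg : g ∈ Ja v T c b') : f * g ∈ Ja v T c (b + b') :=
  mem_Ja.2 fun j => mul_mem_Jc hv (mem_Ja.1 hf j) (mem_Ja.1 hg j)

theorem mem_mx {c : Fin (m + 1) → ℂ} {f : R m} : f ∈ mx c ↔ eval c f = 0 := Iff.rfl

theorem mx_isMaximal (c : Fin (m + 1) → ℂ) : (mx c).IsMaximal :=
  RingHom.ker_isMaximal_of_surjective _ fun a => ⟨C a, eval_C _⟩

theorem sub_C_mem_mx (c : Fin (m + 1) → ℂ) (f : R m) : f - C (eval c f) ∈ mx c := by
  rw [mem_mx]; simp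

theorem mx_eq_span (c : Fin (m + 1) → ℂ) :
    mx c = Ideal.span (Set.range fun i => (X i - C (c i) : R m)) := by
  apply le_antisymm
  · have key : ∀ f : R m, f - C (eval c f) ∈
        Ideal.span (Set.range fun i => (X i - C (c i) : R m)) := by
      intro f
      induction f using MvPolynomial.induction_on with
      | C a => simp
      | add p q hp hq =>
        have := Ideal.add_mem _ hp hq
        rw [map_add, map_add]
        convert this using 1
        ring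
      | mul_X p i hp =>
        have h1 : (X i - C (c i) : R m) ∈
            Ideal.span (Set.range fun i => (X i - C (c i) : R m)) :=
          Ideal.subset_span ⟨i, rfl⟩
        have := Ideal.add_mem _ (Ideal.mul_mem_right (X i) _ hp)
          (Ideal.mul_mem_left _ (C (eval c p)) h1)
        rw [map_mul, eval_X, map_mul]
        convert this using 1
        ring
    intro f hf
    have := key f
    rwa [mem_mx.1 hf, map_zero, sub_zero] at this
  · rw [Ideal.span_le]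
    rintro _ ⟨i, rfl⟩
    change _ ∈ mx c
    rw [mem_mx]; simp

theorem eval_tr (c : Fin (m + 1) → ℂ) (f : R m) : eval (ctr one1 0) (tr c f) = eval c f := by
  induction f using MvPolynomial.induction_on with
  | C a => rw [tr_C]; simp
  | add p q hp hq => simp only [map_add, hp, hq]
  | mul_X p i hp =>
    simp only [map_mul, hp, eval_X]
    congr 1
    refine Fin.cases ?_ (fun i => ?_) i
    · rw [tr_X_zero]; simp [ctr_zero]
    · rw [tr_X_succ]; simp [ctr_succ]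

theorem exists_mx_pow_le (hv : ∀ i, 0 < v i) (c : Fin (m + 1) → ℂ) (b : ℝ) :
    ∃ n : ℕ, mx c ^ n ≤ Jc v T c b := by
  obtain ⟨n, hn⟩ := exists_cm_pow_le (r := one1) (T := T) hv 0 b
  refine ⟨n, ?_⟩
  have h1 : mx c = (cm (one1 (m := m)) 0).comap (tr c) := by
    ext f
    rw [Ideal.mem_comap, mem_cm, eval_tr, mem_mx]
  rw [h1]
  intro f hf
  have h2 : tr c f ∈ cm (one1 (m := m)) 0 ^ n := Ideal.le_comap_pow (tr c) n hf
  exact mem_Jc'.2 (hn h2)

theorem Jc_sup_eq_top (hv : ∀ i, 0 < v i) {c : Fin (m + 1) → ℂ} {p : Ideal (R m)}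
    (hp : ¬ p ≤ mx c) (b : ℝ) : Jc v T c b ⊔ p = ⊤ := by
  obtain ⟨n, hn⟩ := exists_mx_pow_le (T := T) hv c b
  have h1 : mx c ⊔ p = ⊤ := by
    refine (mx_isMaximal c).1.2 _ (lt_of_le_of_ne le_sup_left fun h => hp ?_)
    rw [h]; exact le_sup_right
  have h2 : mx c ^ n ⊔ p = ⊤ := Ideal.pow_sup_eq_top h1
  rw [eq_top_iff, ← h2]
  exact sup_le_sup_right hn p

theorem eq_of_mem_mx {c : Fin (m + 1) → ℂ} {i : Fin (m + 1)} {a : ℂ}
    (h : (X i - C a : R m) ∈ mx c) : c i = a := by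
  have := mem_mx.1 h
  rw [map_sub, eval_X, eval_C] at this
  exact sub_eq_zero.1 this

theorem mx_injective : Injective (mx (m := m)) := by
  intro c c' h
  funext i
  have h1 : (X i - C (c i) : R m) ∈ mx c := by rw [mem_mx]; simp
  rw [h] at h1
  exact (eq_of_mem_mx h1).symm

theorem isCoprime_Jc {κ : Type} (hv : ∀ i, 0 < v i) {c : κ → Fin (m + 1) → ℂ}
    (hc : Injective c) (b : ℝ) : Pairwise (onFun IsCoprime fun j => Jc v T (c j) b) :=
  pairwise_coprime_of_pow_le (I := fun j => Jc v T (c j) b) (m := fun j => mx (c j))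
    (fun j => mx_isMaximal _) (mx_injective.comp hc) (fun j => exists_mx_pow_le hv _ b)

theorem mem_Ja_sup {κ : Type} [Finite κ] (hv : ∀ i, 0 < v i) {c : κ → Fin (m + 1) → ℂ}
    (hc : Injective c) {b : ℝ} {p : Ideal (R m)} {f : R m}
    (h : ∀ j, f ∈ Jc v T (c j) b ⊔ p) : f ∈ Ja v T c b ⊔ p :=
  mem_iInf_sup_of_forall (I := fun j => Jc v T (c j) b) (isCoprime_Jc hv hc b) h

theorem tr_pderiv_succ (c : Fin (m + 1) → ℂ) (i : Fin m) (f : R m) :
    tr c (pderiv i.succ f) = pderiv i.succ (tr c f) := by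
  refine map_derivation_of_X _ _ _ (fun k => ?_) f
  refine Fin.cases ?_ (fun k => ?_) k
  · rw [tr_X_zero, pderiv_X_of_ne (Fin.succ_ne_zero i).symm]
    simp [pderiv_X_of_ne (Fin.succ_ne_zero i).symm]
  · rw [tr_X_succ, map_add, pderiv_C, add_zero]
    by_cases h : k = i
    · subst h; simp
    · rw [pderiv_X_of_ne (fun e => h (Fin.succ_injective _ e))]; simp

theorem tr_D (c : Fin (m + 1) → ℂ) (i : Fin (m + 1)) (f : R m) :
    tr c (D i f) = D i (tr c f) := by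
  refine Fin.cases ?_ (fun i => ?_) i
  · refine map_derivation_of_X _ _ _ (fun k => ?_) f
    have h0 : ∀ i : Fin m, pderiv i.succ (X 0 : R m) = 0 := fun i =>
      pderiv_X_of_ne (Fin.succ_ne_zero i).symm
    have hX0 : D 0 (X 0 : R m) = X 0 := by
      rw [D_zero_apply]
      simp [h0]
    refine Fin.cases ?_ (fun k => ?_) k
    · rw [hX0, tr_X_zero, Derivation.leibniz, hX0, derivation_C]
      simp
    · have h2 : D 0 (X k.succ : R m) = 1 := by
        rw [D_zero_apply, pderiv_X_of_ne (Fin.succ_ne_zero k), Finset.sum_eq_single k]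
        · simp
        · intro i _ hi
          rw [pderiv_X_of_ne (fun e => hi (Fin.succ_injective _ e).symm)]
        · simp
      rw [h2, tr_X_succ, map_add, h2, derivation_C]
      simp
  · rw [D_succ, tr_pderiv_succ]

theorem D_mem_Ja {κ : Type} (hS : Setup θ w v one1 T) {c : κ → Fin (m + 1) → ℂ} {b : ℝ}
    {f : R m} (i : Fin (m + 1)) (hf : f ∈ Ja v T c b) : D i f ∈ Ja v T c (b - v i) :=
  mem_Ja.2 fun j => by
    rw [mem_Jc', tr_D]
    exact D_mem_Ij hS i (mem_Ja.1 hf j)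

theorem Dw_mem_Ja {κ : Type} (hS : Setup θ w v one1 T) {c : κ → Fin (m + 1) → ℂ} {b : ℝ}
    {f : R m} (L : List (Fin (m + 1))) (hf : f ∈ Ja v T c b) :
    Dw D L f ∈ Ja v T c (b - (L.map v).sum) := by
  induction L generalizing f b with
  | nil => simpa [Dw_nil] using hf
  | cons i L ih =>
    have := ih (D_mem_Ja hS i hf)
    rw [Dw_cons, List.map_cons, List.sum_cons, ← sub_sub]
    exact this

theorem mem_F_of_Y_mul' (hw : ∀ i, 0 < w i) {a : ℝ} {P : R m} (y : ℂ)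
    (h : (X 0 - C y) * P ∈ F w a) : P ∈ F w (a - w 0) := by
  classical
  rcases P.support.eq_empty_or_nonempty with h0 | h0
  · exact mem_F.2 fun α hα => by simp [h0] at hα
  obtain ⟨α, hα, hmax⟩ := P.support.exists_max_image (wt w) h0
  have hwt : wt w (Finsupp.single 0 1 + α) = w 0 + wt w α := by
    rw [wt_add, wt_single]; simp
  have h1 : coeff (Finsupp.single 0 1 + α) P = 0 := by
    by_contra hne
    have := hmax _ (mem_support_iff.2 hne)
    rw [hwt] at this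
    linarith [hw 0]
  have h2 : Finsupp.single 0 1 + α ∈ ((X 0 - C y) * P).support := by
    rw [mem_support_iff, sub_mul, coeff_sub, coeff_X_mul, coeff_C_mul, h1, mul_zero, sub_zero]
    exact mem_support_iff.1 hα
  have h3 := mem_F.1 h _ h2
  rw [hwt] at h3
  exact mem_F.2 fun β hβ => by linarith [hmax β hβ]

theorem mem_Jc_of_Y_mul (hv : ∀ i, 0 < v i) {c : Fin (m + 1) → ℂ} (hc : c 0 ≠ 0) {b : ℝ}
    {P : R m} (y : ℂ) (h : (X 0 - C y) * P ∈ Jc v T c b) : P ∈ Jc v T c (b - v 0) := by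
  have hv0 : ∀ i, 0 ≤ v i := fun i => (hv i).le
  by_cases hy : c 0 = y
  · subst hy
    have h1 := (Jc v T c b).mul_mem_left (C (c 0)⁻¹) h
    have h2 : C (c 0)⁻¹ * ((X 0 - C (c 0)) * P) = (C (c 0)⁻¹ * X 0 - 1) * P := by
      rw [← mul_assoc, mul_sub, ← map_mul, inv_mul_cancel₀ hc, map_one]
    rw [h2, mem_Jc, map_mul, ph_t hc] at h1
    exact mem_W_of_X_mul hv0 0 h1
  · have h1 : Jc v T c b ⊔ Ideal.span {(X 0 - C y : R m)} = ⊤ := by
      refine Jc_sup_eq_top hv (fun hle => hy ?_) b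
      exact eq_of_mem_mx (hle (Ideal.subset_span rfl))
    have h2 : (1 : R m) ∈ Jc v T c b ⊔ Ideal.span {(X 0 - C y : R m)} := by
      rw [h1]; trivial
    obtain ⟨a, ha, s, hs, has⟩ := Submodule.mem_sup.1 h2
    obtain ⟨t, rfl⟩ := Ideal.mem_span_singleton'.1 hs
    have h3 : P = a * P + t * ((X 0 - C y) * P) := by
      rw [← mul_assoc, ← add_mul, has, one_mul]
    refine Jc_anti c (by linarith [hv 0]) (show P ∈ Jc v T c b from ?_)
    rw [h3]
    exact add_mem (Ideal.mul_mem_right _ _ ha) (Ideal.mul_mem_left _ _ h)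

theorem X_sub_mem_Jc_sup {c : Fin (m + 1) → ℂ} (hc : c 0 ≠ 0) (i : Fin m) :
    (X i.succ - C (c i.succ) : R m) ∈
      Jc v T c (v i.succ) ⊔ Ideal.span {(X 0 - C (c 0) : R m)} := by
  refine Submodule.mem_sup.2 ⟨X i.succ - C (c i.succ) -
    Polynomial.aeval (C (c 0)⁻¹ * X 0 - 1 : R m) (logTrunc (T i)), ?_,
    Polynomial.aeval (C (c 0)⁻¹ * X 0 - 1 : R m) (logTrunc (T i)), ?_, by ring⟩
  · rw [mem_Jc, ph_u hc]; exact X_mem_W v _
  · obtain ⟨g, hg⟩ := X_dvd_logTrunc (T i)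
    rw [hg, map_mul, Polynomial.aeval_X]
    refine Ideal.mul_mem_right _ _ ?_
    have h2 : (C (c 0)⁻¹ * X 0 - 1 : R m) = C (c 0)⁻¹ * (X 0 - C (c 0)) := by
      rw [mul_sub, ← map_mul, inv_mul_cancel₀ hc, map_one]
    rw [h2]
    exact Ideal.mul_mem_left _ _ (Ideal.subset_span rfl)

/-- Removing the factors `Y - y` from an auxiliary polynomial. -/
theorem exists_aux_not_dvd {κ : Type} (hS : Setup θ w v one1 T) {c : κ → Fin (m + 1) → ℂ}
    (hc : ∀ j, c j 0 ≠ 0) (y : ℂ) {μ : ℝ} (hμ : 1 ≤ μ) {a b : ℝ} {P : R m}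
    (hP0 : P ≠ 0) (hPF : P ∈ F w a) (hPI : P ∈ Ja v T c b) (hab : μ * a < b) :
    ∃ (P' : R m) (a' b' : ℝ), P' ∉ Ideal.span {(X 0 - C y : R m)} ∧ 0 ≤ a' ∧ P' ∈ F w a' ∧
      P' ∈ Ja v T c b' ∧ μ * a' < b' := by
  have hu : ¬ IsUnit (X 0 - C y : R m) := by
    intro h
    have := h.map (eval (fun _ => y))
    simp at this
  obtain ⟨n, P', hP', rfl⟩ := WfDvdMonoid.max_power_factor' hP0 hu
  have hP'0 : P' ≠ 0 := by rintro rfl; exact hP' (dvd_zero _)
  clear hP0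
  induction n generalizing a b with
  | zero =>
    rw [pow_zero, one_mul] at hPF hPI
    refine ⟨P', a, b, fun h => hP' (Ideal.mem_span_singleton.1 h), ?_, hPF, hPI, hab⟩
    by_contra ha
    exact hP'0 (eq_zero_of_mem_F_neg (fun i => (hS.wpos i).le) (not_le.1 ha) hPF)
  | succ n ih =>
    rw [pow_succ', mul_assoc] at hPF hPI
    refine ih ?_ (mem_F_of_Y_mul' hS.wpos y hPF)
      (mem_Ja.2 fun j => mem_Jc_of_Y_mul hS.vpos (hc j) y (mem_Ja.1 hPI j))
    have h1 := hS.v0le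
    have h2 := hS.wpos 0
    nlinarith

theorem const_of_derivs (hS : Setup θ w v one1 T) {ε : ℝ} (hε : 0 < ε) (hε1 : ε ≤ 1)
    (hsep : ∀ i l, i < l → v i < (ε / (m + 2)) ^ (m + 1) * θ ^ m * w l)
    (p : Ideal (R m)) (hp : p.IsPrime) {c : Fin (m + 1) → ℂ} (hc : c 0 ≠ 0) (hle : p ≤ mx c)
    {P : R m} {a : ℝ}
    (ha : 0 ≤ a) (hPF : P ∈ F w a) (hPn : P ∉ Ideal.span {(X 0 - C (c 0) : R m)})
    (hder : ∀ L : List (Fin (m + 1)), (L.map v).sum ≤ ((m + 2 : ℕ) : ℝ) * (ε * a) →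
      Dw D L P ∈ p) :
    (X 0 - C (c 0) : R m) ∈ p ∧ ∃ (l : Fin m) (a : ℂ), (X l.succ - C a : R m) ∈ p := by
  have hw0 : ∀ i, 0 ≤ w i := fun i => (hS.wpos i).le
  have hεa : 0 ≤ ε * a := mul_nonneg hε.le ha
  let G : ℕ → Set (R m) := fun l =>
    {g | ∃ L : List (Fin (m + 1)), (L.map v).sum ≤ l * (ε * a) ∧ g = Dw D L P}
  let J : ℕ → Ideal (R m) := fun l => Ideal.span (G l)
  have hJ : Monotone J := by
    intro l l' hl
    refine Ideal.span_mono ?_
    rintro g ⟨L, h1, h2⟩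
    exact ⟨L, h1.trans (mul_le_mul_of_nonneg_right (Nat.cast_le.2 hl) hεa), h2⟩
  have hJp : J (m + 2) ≤ p := by
    rw [Ideal.span_le]
    rintro g ⟨L, h1, rfl⟩
    exact hder L h1
  obtain ⟨i, -, q, hq, hJq, hqp⟩ := Key.exists_minimalPrime_step (m + 1) J hJ p
    (Key.height_le_card p) (m + 2) le_rfl hJp
  have hPq : P ∈ q := by
    refine hq.1.2 (Ideal.subset_span ⟨[], ?_, rfl⟩)
    rw [List.map_nil, List.sum_nil]
    exact mul_nonneg (Nat.cast_nonneg i) hεa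
  have hq0 : q ≠ ⊥ := by
    rintro rfl
    rw [Ideal.mem_bot] at hPq
    exact hPn (hPq ▸ Ideal.zero_mem _)
  have hqm : q ≤ mx c := hqp.trans hle
  have hY : (X 0 : R m) ∉ q := by
    intro h
    have h1 : (X 0 - C 0 : R m) ∈ mx c := by rw [C_0, sub_zero]; exact hqm h
    exact hc (eq_of_mem_mx h1)
  obtain ⟨c0, hc0, hcase⟩ := struct_of_jets hS hε hε1 hsep q (G i) hq (a := a) (by
    rintro g ⟨L, hL, rfl⟩
    refine ⟨Dw_mem_F hw0 L hPF, fun L' hL' => ?_⟩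
    rw [← Dw_append]
    refine hJq (Ideal.subset_span ⟨L ++ L', ?_, rfl⟩)
    rw [List.map_append, List.sum_append, Nat.cast_succ]
    linarith) hq0 hY
  have hc01 : c 0 = c0 := eq_of_mem_mx (hqm hc0)
  subst hc01
  rcases hcase with ⟨l, c1, hc1⟩ | hcase
  · exact ⟨hqp hc0, l, c1, hqp hc1⟩
  · exact absurd (hcase hPq) hPn

theorem key {κ : Type} [Finite κ] (hS : Setup θ w v one1 T) {c : κ → Fin (m + 1) → ℂ}
    (hc : ∀ j, c j 0 ≠ 0) (hinj : Injective c)
    (hx : ∀ j j', j ≠ j' → ∀ l : Fin m, c j l.succ ≠ c j' l.succ)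
    {μ0 : ℝ} (hμ1 : 1 < μ0) (hμ2 : μ0 ≤ 2)
    (hex : ∃ a, 0 < a ∧ ∃ P : R m, P ≠ 0 ∧ P ∈ F w a ∧ P ∈ Ja v T c (μ0 * a))
    (hsep : ∀ i l, i < l → v i < ((μ0 - 1) / (2 * (m + 2) ^ 2)) ^ (m + 1) * θ ^ m * w l)
    (p : Ideal (R m)) (hp : p.IsPrime) {j : κ} (hle : p ≤ mx (c j)) (hne : p ≠ mx (c j)) :
    ∃ (Q : R m) (a b : ℝ), Q ∉ p ∧ 0 ≤ a ∧ Q ∈ F w a ∧ Q ∈ Ja v T c b ⊔ p ∧ a < b := by
  by_contra hcon
  have hstar : ∀ (Q : R m) (a b : ℝ), 0 ≤ a → Q ∈ F w a → Q ∈ Ja v T c b ⊔ p → a < b →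
      Q ∈ p := by
    intro Q a b h1 h2 h3 h4
    by_contra h5
    exact hcon ⟨Q, a, b, h5, h1, h2, h3, h4⟩
  have hw0 : ∀ i, 0 ≤ w i := fun i => (hS.wpos i).le
  have hθ := hS.θpos
  have hθ1 := hS.θlt
  have hm0 : (0 : ℝ) ≤ m := Nat.cast_nonneg m
  have hm2 : (0 : ℝ) < m + 2 := by positivity
  obtain ⟨ε, hε⟩ : ∃ ε : ℝ, ε = (μ0 - 1) / (2 * (m + 2)) := ⟨_, rfl⟩
  have hεpos : 0 < ε := by rw [hε]; apply div_pos <;> linarith
  have hε1 : ε ≤ 1 := by rw [hε, div_le_one (by linarith)]; linarith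
  have hεm : ((m + 2 : ℕ) : ℝ) * ε = (μ0 - 1) / 2 := by
    rw [hε]; push_cast; field_simp
  have hεs : ε / (m + 2) = (μ0 - 1) / (2 * (m + 2) ^ 2) := by
    rw [hε]; field_simp
  obtain ⟨a0, ha0, P0, hP00, hP0F, hP0I⟩ := hex
  obtain ⟨P, a, b, hPn, ha, hPF, hPI, hab⟩ := exists_aux_not_dvd hS hc (c j 0)
    (μ := (1 + μ0) / 2) (by linarith) hP00 hP0F hP0I (by nlinarith)
  obtain ⟨hY, l, c1, hc1⟩ := const_of_derivs hS hεpos hε1 (by rw [hεs]; exact hsep) p hp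
    (hc j) hle ha hPF hPn (by
      intro L h1
      refine hstar _ a (b - (L.map v).sum) ha (Dw_mem_F hw0 L hPF)
        (Ideal.mem_sup_left (Dw_mem_Ja hS L hPI)) ?_
      rw [← mul_assoc, hεm] at h1
      linarith)
  have hYp : Ideal.span {(X 0 - C (c j 0) : R m)} ≤ p :=
    (Ideal.span_singleton_le_iff_mem p).2 hY
  have hother : ∀ j' : κ, j' ≠ j → ¬ p ≤ mx (c j') := by
    intro j' hj' h
    exact hx j' j hj' l ((eq_of_mem_mx (h hc1)).trans (eq_of_mem_mx (hle hc1)).symm)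
  apply hne
  refine le_antisymm hle ?_
  rw [mx_eq_span, Ideal.span_le]
  rintro _ ⟨k, rfl⟩
  refine Fin.cases ?_ (fun k => ?_) k
  · exact hY
  · change (X k.succ - C (c j k.succ) : R m) ∈ p
    refine hstar _ (w k.succ) (v k.succ) (hw0 _)
      (sub_mem (X_mem_F w _) (C_mem_F w (hw0 _) _)) (mem_Ja_sup hS.vpos hinj ?_) ?_
    · intro j'
      by_cases hj' : j' = j
      · subst hj'
        exact sup_le_sup_left hYp _ (X_sub_mem_Jc_sup (hc j') k)
      · rw [Jc_sup_eq_top hS.vpos (hother j' hj')]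
        trivial
    · rw [hS.vsucc k, lt_div_iff₀ hθ]
      have := hS.wpos k.succ
      nlinarith

theorem exists_aux_of_card_lt {κ : Type} [Fintype κ] (hv : ∀ i, 0 < v i)
    (c : κ → Fin (m + 1) → ℂ) {a b : ℝ}
    (h : Fintype.card κ * (simplex v b).card < (simplex w a).card) :
    ∃ P : R m, P ≠ 0 ∧ P ∈ F w a ∧ P ∈ Ja v T c b := by
  classical
  let col : ↥(simplex w a) → (κ × ↥(simplex v b) → ℂ) := fun α ρ =>
    coeff ρ.2.1 (ph T (c ρ.1) (monomial α.1 1))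
  have hdep : ¬ LinearIndependent ℂ col := by
    intro hli
    have h1 := hli.fintype_card_le_finrank
    rw [Module.finrank_fintype_fun_eq_card, Fintype.card_prod,
      Fintype.card_coe, Fintype.card_coe] at h1
    omega
  obtain ⟨g, hg, α0, hα0⟩ := Fintype.not_linearIndependent_iff.1 hdep
  refine ⟨∑ α : ↥(simplex w a), g α • monomial α.1 (1 : ℂ), ?_, ?_, ?_⟩
  · intro h0
    have h1 := congrArg (coeff α0.1) h0
    rw [coeff_sum, Finset.sum_eq_single α0] at h1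
    · simp [hα0] at h1
    · intro α _ hne
      rw [coeff_smul, coeff_monomial, if_neg (fun e => hne (Subtype.ext e)), smul_zero]
    · intro h2
      exact absurd (Finset.mem_univ _) h2
  · exact Submodule.sum_mem _ fun α _ => Submodule.smul_mem _ _
      (monomial_mem_F 1 (lt_of_mem_simplex α.2).le)
  · refine mem_Ja.2 fun j => ?_
    rw [mem_Jc, mem_W_iff_coeff fun i => (hv i).le]
    intro β hβ
    have h1 := congrFun hg (j, ⟨β, mem_simplex_of_lt hv hβ⟩)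
    rw [Finset.sum_apply] at h1
    rw [map_sum, coeff_sum]
    refine Eq.trans (Finset.sum_congr rfl fun α _ => ?_) h1
    rw [map_smul, coeff_smul]
    rfl

theorem exists_aux {κ : Type} [Fintype κ] (hS : Setup θ w v one1 T) (c : κ → Fin (m + 1) → ℂ)
    {μ0 : ℝ} (hμ : 0 < μ0)
    (hvol : (Fintype.card κ : ℝ) * μ0 ^ (m + 1) * θ ^ m * w 0 < v 0) :
    ∃ a, 0 < a ∧ ∃ P : R m, P ≠ 0 ∧ P ∈ F w a ∧ P ∈ Ja v T c (μ0 * a) := by
  set K := Fintype.card κ with hK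
  set S : ℝ := ∑ i, v i with hSdef
  have hcont : Tendsto (fun a : ℝ => (K : ℝ) * (μ0 + S / a) ^ (m + 1) * θ ^ m * w 0) atTop
      (𝓝 ((K : ℝ) * (μ0 + 0) ^ (m + 1) * θ ^ m * w 0)) :=
    ((((tendsto_const_nhds.add (tendsto_const_nhds.div_atTop tendsto_id)).pow _).const_mul
      _).mul_const _).mul_const _
  rw [add_zero] at hcont
  obtain ⟨a, ha1, ha0⟩ := ((hcont.eventually (gt_mem_nhds hvol)).and (eventually_gt_atTop 0)).exists
  refine ⟨a, ha0, exists_aux_of_card_lt hS.vpos c ?_⟩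
  have h1 := card_simplex_upper hS.vpos (X := μ0 * a) (by positivity)
  have h2 := card_simplex_lower hS.wpos ha0
  rw [Fintype.card_fin, Fin.prod_univ_succ] at h1 h2
  rw [← hSdef] at h1
  set Pw : ℝ := ∏ i : Fin m, w i.succ with hPw
  have hPw0 : 0 < Pw := Finset.prod_pos fun i _ => hS.wpos _
  have hθ := hS.θpos
  have hw0 := hS.wpos 0
  have hv0 := hS.vpos 0
  have hfac : (0 : ℝ) < (m + 1).factorial := by exact_mod_cast (m + 1).factorial_pos
  have hPv : ∏ i : Fin m, v i.succ = Pw / θ ^ m := by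
    rw [Finset.prod_congr rfl fun i _ => hS.vsucc i, Finset.prod_div_distrib]
    simp [hPw]
  rw [hPv] at h1
  have e1 : μ0 * a + S = a * (μ0 + S / a) := by field_simp
  have h3 : (K : ℝ) * ((μ0 * a + S) ^ (m + 1) / ((m + 1).factorial * (v 0 * (Pw / θ ^ m)))) <
      a ^ (m + 1) / ((m + 1).factorial * (w 0 * Pw)) := by
    have e2 : (K : ℝ) * ((μ0 * a + S) ^ (m + 1) / ((m + 1).factorial * (v 0 * (Pw / θ ^ m)))) =
        a ^ (m + 1) / ((m + 1).factorial * (w 0 * Pw)) *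
          ((K : ℝ) * (μ0 + S / a) ^ (m + 1) * θ ^ m * w 0 / v 0) := by
      rw [e1, mul_pow]
      field_simp
    rw [e2]
    refine mul_lt_of_lt_one_right (by positivity) ?_
    rwa [div_lt_one hv0]
  have h4 : (K : ℝ) * (simplex v (μ0 * a)).card < (simplex w a).card :=
    lt_of_le_of_lt (mul_le_mul_of_nonneg_left h1 (Nat.cast_nonneg K)) (h3.trans_le h2)
  exact_mod_cast h4

theorem exists_sub_mem_Jc {κ : Type} [Finite κ] (hS : Setup θ w v one1 T)
    {c : κ → Fin (m + 1) → ℂ} (hinj : Injective c)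
    (hkey : ∀ p : Ideal (R m), p.IsPrime → ∀ j, p ≤ mx (c j) → p ≠ mx (c j) →
      ∃ (Q : R m) (a b : ℝ), Q ∉ p ∧ 0 ≤ a ∧ Q ∈ F w a ∧ Q ∈ Ja v T c b ⊔ p ∧ a < b) :
    ∃ H0 : ℝ, ∀ H, H0 ≤ H → ∀ g : κ → R m,
      ∃ P ∈ F w H, ∀ j, P - g j ∈ Jc v T (c j) H := by
  have hv0 : ∀ i, 0 ≤ v i := fun i => (hS.vpos i).le
  have hgood : Good (F w) (Ja v T c) ⊥ 1 ⊥ := by
    refine good_bot_of_primes (F_mono w) (fun a a' f g hf hg => mul_mem_F hf hg)
      (fun f => (exists_mem_F w f).imp fun a ha => ha.2) Ja_anti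
      (fun b b' => Ideal.mul_le.2 fun f hf g hg => mul_mem_Ja hv0 hf hg) ?_ one_pos ?_
    · intro u hu
      rw [Submonoid.mem_bot] at hu
      rw [hu]
      exact C_mem_F w le_rfl 1
    · intro p hp hsteep
      by_cases h1 : ∃ j, p ≤ mx (c j)
      · obtain ⟨j, hle⟩ := h1
        by_cases h2 : p = mx (c j)
        · subst h2
          refine ⟨2, by norm_num, 0, fun H hH g => ?_⟩
          refine ⟨1, Submonoid.one_mem _, C (eval (c j) g), C_mem_F w hH _, ?_⟩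
          rw [one_mul]
          exact Ideal.mem_sup_right (sub_C_mem_mx _ g)
        · obtain ⟨Q, a, b, hQ, ha, hQa, hQb, hab⟩ := hkey p hp j hle h2
          exact absurd (hsteep Q a b hQa hQb (by linarith) (by linarith)) hQ
      · push Not at h1
        refine ⟨2, by norm_num, 0, fun H _ g => ⟨1, Submonoid.one_mem _, 0, (F w H).zero_mem, ?_⟩⟩
        refine mem_Ja_sup hS.vpos hinj fun j => ?_
        rw [Jc_sup_eq_top hS.vpos (h1 j)]
        exact Submodule.mem_top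
  obtain ⟨s, hs, H0, hH⟩ := hgood
  refine ⟨max H0 0, fun H hH0 g => ?_⟩
  have hH1 : 0 ≤ H := le_trans (le_max_right _ _) hH0
  obtain ⟨y, hy⟩ := Ideal.exists_forall_sub_mem_ideal (isCoprime_Jc (T := T) hS.vpos hinj H) g
  obtain ⟨u, hu, x, hx, hux⟩ := hH H (le_trans (le_max_left _ _) hH0) y
  rw [Submonoid.mem_bot] at hu
  subst hu
  rw [one_mul, sup_bot_eq, mem_Ja] at hux
  refine ⟨x, hx, fun j => ?_⟩
  have e : x - g j = (y - g j) - (y - x) := by ring
  rw [e]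
  exact (Jc v T (c j) H).sub_mem (hy j) (Jc_anti _ (by nlinarith) (hux j))

/-- The zero estimate: a nonzero minor of full size of the jet matrix. -/
theorem exists_minor {κ : Type} [Fintype κ] [DecidableEq κ] (hm : 0 < m)
    (hS : Setup θ w v one1 T) {c : κ → Fin (m + 1) → ℂ} (hc : ∀ j, c j 0 ≠ 0)
    (hx : ∀ j j', j ≠ j' → ∀ l : Fin m, c j l.succ ≠ c j' l.succ)
    {μ0 : ℝ} (hμ1 : 1 < μ0) (hμ2 : μ0 ≤ 2)
    (hvol : (Fintype.card κ : ℝ) * μ0 ^ (m + 1) * θ ^ m * w 0 < v 0)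
    (hsep : ∀ i l, i < l → v i < ((μ0 - 1) / (2 * (m + 2) ^ 2)) ^ (m + 1) * θ ^ m * w l) :
    ∃ H0 : ℝ, ∀ H, H0 ≤ H → ∃ col : κ × ↥(simplex v H) → (Fin (m + 1) →₀ ℕ),
      (∀ a, wt w (col a) ≤ H) ∧
      (Matrix.of fun ρ a : κ × ↥(simplex v H) =>
        coeff ρ.2.1 (ph T (c ρ.1) (monomial (col a) 1))).det ≠ 0 := by
  have hinj : Injective c := by
    intro j j' h
    by_contra hne
    exact hx j j' hne ⟨0, hm⟩ (by rw [h])
  obtain ⟨H0, hH⟩ := exists_sub_mem_Jc hS hinj fun p hp j hle hne =>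
    key hS hc hinj hx hμ1 hμ2 (exists_aux hS c (by linarith) hvol) hsep p hp hle hne
  refine ⟨H0, fun H hH0 => ?_⟩
  obtain ⟨col, -, hcol, hdet⟩ := exists_minor_of_jets (ρ := κ × ↥(simplex v H))
    (fun j : κ => ph T (c j)) (fun j => ph_surjective (hc j)) (fun ρ => ρ.1) (fun ρ => ρ.2.1)
    (fun i i' h1 h2 => Prod.ext h1 (Subtype.ext h2)) {α | wt w α ≤ H} (fun g => by
      obtain ⟨P, hP, hPg⟩ := hH H hH0 g
      refine ⟨P, mem_F.1 hP, fun i => ?_⟩
      exact (mem_W_iff_coeff fun i => (hS.vpos i).le).1 (hPg i.1) _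
        ((mem_simplex hS.vpos).1 i.2.2))
  exact ⟨col, hcol, hdet⟩

/-- The jets of a monomial as coefficients of a polynomial in one variable. -/
theorem coeff_ph_monomial (c : Fin (m + 1) → ℂ) (α β : Fin (m + 1) →₀ ℕ) :
    coeff β (ph T c (monomial α 1)) = c 0 ^ α 0 *
      ((1 + Polynomial.X) ^ α 0 * ∏ k : Fin m,
        Polynomial.C (((α k.succ).choose (β k.succ) : ℕ) : ℂ) *
          (Polynomial.C (c k.succ) + logTrunc (T k)) ^ (α k.succ - β k.succ)).coeff (β 0) := by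
  rw [← An.coeff_prod_pow (fun k => Polynomial.C (c k.succ) + logTrunc (T k)) (α 0)
    (fun k => α k.succ) β, ← coeff_C_mul]
  congr 1
  rw [monomial_eq, C_1, one_mul, Finsupp.prod_fintype _ _ (fun i => pow_zero _), map_prod,
    Fin.prod_univ_succ]
  simp only [map_pow, ph_X_zero, ph_X_succ, map_add, Polynomial.aeval_C, algebraMap_eq, mul_pow]
  ring

end Vale.Agent.N021
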